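import Vale.Agent.P091.Spikes

/-!
Kernels realising point masses as trigonometric polynomials on the circle `ℝ / 2πℤ`.
-/

namespace Vale.Agent.P091

open Complex Finset MeasureTheory AddCircle
open scoped Real ComplexConjugate ENNReal

noncomputable section

variable [hT : Fact (0 < 2 * π)]

lemma fourier_turn (p : ℤ) (y : ℝ) :
    fourier p ((2 * π * y : ℝ) : AddCircle (2 * π)) = ee (p * y) := by
  rw [fourier_coe_apply, ee]
  congr 1
  push_cast
  field_simp

lemma norm_fourier_apply (p : ℤ) (z : AddCircle (2 * π)) : ‖fourier p z‖ = 1 :=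
  Circle.norm_coe _

lemma integrable_cont {f : AddCircle (2 * π) → ℂ} (hf : Continuous f) :
    Integrable f haarAddCircle :=
  hf.integrable_of_hasCompactSupport (HasCompactSupport.of_compactSpace f)

lemma integral_fourier (j : ℤ) :
    ∫ z, fourier j z ∂(haarAddCircle (T := 2 * π)) = if j = 0 then 1 else 0 := by
  have h := congrFun (fourierCoeff_fourier (T := 2 * π) j) 0
  simpa [fourierCoeff, Pi.single_apply, eq_comm] using h

lemma fourierCoeff_sum_fourier {ι : Type*} (s : Finset ι) (c : ι → ℂ) (j : ι → ℤ) (q : ℤ) :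
    fourierCoeff (fun z : AddCircle (2 * π) => ∑ i ∈ s, c i * fourier (j i) z) q
      = ∑ i ∈ s, if j i = q then c i else 0 := by
  have e : (fun z : AddCircle (2 * π) => ∑ i ∈ s, c i * fourier (j i) z)
      = ∑ i ∈ s, fun z => c i * fourier (j i) z := by
    ext z; simp
  rw [e, fourierCoeff.sum s (fun i (z : AddCircle (2 * π)) => c i * fourier (j i) z) fun i _ =>
    integrable_cont (continuous_const.mul (map_continuous (fourier (j i)))),
    Finset.sum_apply]
  refine sum_congr rfl fun i _ => ?_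
  rw [fourierCoeff.const_mul, fourierCoeff_fourier]
  simp [Pi.single_apply, eq_comm]

lemma integral_sq_sum {ι : Type*} (s : Finset ι) (c : ι → ℂ) (j : ι → ℤ) (hj : Set.InjOn j s) :
    ∫ z, ‖∑ i ∈ s, c i * fourier (j i) z‖ ^ 2 ∂(haarAddCircle (T := 2 * π))
      = ∑ i ∈ s, ‖c i‖ ^ 2 := by
  classical
  apply ofReal_injective
  rw [← integral_complex_ofReal]
  simp only [ofReal_pow, ← mul_conj', map_sum, map_mul, ← fourier_neg, sum_mul_sum, ofReal_sum]
  rw [integral_finsetSum _ fun a _ => integrable_cont (by fun_prop)]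
  refine sum_congr rfl fun a ha => ?_
  rw [integral_finsetSum _ fun b _ => integrable_cont (by fun_prop)]
  rw [sum_eq_single a]
  · simp_rw [mul_mul_mul_comm, ← fourier_add, integral_const_mul, integral_fourier]
    simp
  · intro b hb hba
    simp_rw [mul_mul_mul_comm, ← fourier_add, integral_const_mul, integral_fourier]
    rw [if_neg (fun h => hba (hj hb ha (by omega))), mul_zero]
  · exact fun h => absurd ha h

/-- A kernel with coefficients one up to `M`, centred at the point of turn `c`. -/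
def vker (M : ℕ) (c : ℝ) (z : AddCircle (2 * π)) : ℂ :=
  (M : ℂ)⁻¹ * ((∑ a ∈ range M, ee (a * c) * fourier (-(a : ℤ)) z) *
    ∑ b ∈ range (3 * M), ee (-(((b : ℤ) - M : ℤ) * c)) * fourier ((b : ℤ) - M) z)

lemma continuous_vker (M : ℕ) (c : ℝ) : Continuous (vker M c) := by
  unfold vker; fun_prop

lemma norm_vker_le (M : ℕ) (c : ℝ) (z : AddCircle (2 * π)) : ‖vker M c z‖ ≤ 3 * M := by
  rw [vker, norm_mul, norm_mul, norm_inv, Complex.norm_natCast]
  have h : ∀ (L : ℕ) (u : ℕ → ℂ) (j : ℕ → ℤ), (∀ a, ‖u a‖ = 1) →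
      ‖∑ a ∈ range L, u a * fourier (j a) z‖ ≤ L := by
    intro L u j hu
    refine (norm_sum_le _ _).trans ?_
    simp [norm_fourier_apply, hu, norm_mul, -fourier_apply]
  have h1 := h M _ (fun a => -(a : ℤ)) (fun a => norm_ee ((a : ℝ) * c))
  have h2 := h (3 * M) _ (fun b => (b : ℤ) - M) (fun b => norm_ee (-(((b : ℤ) - M : ℤ) * c)))
  push_cast at h2
  rcases Nat.eq_zero_or_pos M with rfl | hM
  · simp
  · calc (M : ℝ)⁻¹ * (_ * _) ≤ (M : ℝ)⁻¹ * (M * (3 * M)) := by
          refine mul_le_mul_of_nonneg_left (mul_le_mul h1 (by exact_mod_cast h2) (norm_nonneg _)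
            (by positivity)) (by positivity)
      _ = 3 * M := by field_simp

lemma integral_norm_vker_le (M : ℕ) (c : ℝ) :
    ∫ z, ‖vker M c z‖ ∂(haarAddCircle (T := 2 * π)) ≤ 2 := by
  rcases Nat.eq_zero_or_pos M with rfl | hM
  · simp [vker]
  set A := fun z : AddCircle (2 * π) => ∑ a ∈ range M, ee (a * c) * fourier (-(a : ℤ)) z
  set B := fun z : AddCircle (2 * π) =>
    ∑ b ∈ range (3 * M), ee (-(((b : ℤ) - M : ℤ) * c)) * fourier ((b : ℤ) - M) z
  have hA : Continuous A := by fun_prop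
  have hB : Continuous B := by fun_prop
  have hint : ∀ f : AddCircle (2 * π) → ℝ, Continuous f → Integrable f haarAddCircle := fun f hf =>
    hf.integrable_of_hasCompactSupport (HasCompactSupport.of_compactSpace f)
  calc ∫ z, ‖vker M c z‖ ∂(haarAddCircle (T := 2 * π))
      ≤ ∫ z, (2 * (M : ℝ))⁻¹ * (‖A z‖ ^ 2 + ‖B z‖ ^ 2) ∂(haarAddCircle (T := 2 * π)) := by
        refine integral_mono (hint _ (continuous_vker M c).norm)
          (hint _ (continuous_const.mul ((hA.norm.pow 2).add (hB.norm.pow 2)))) fun z => ?_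
        show ‖vker M c z‖ ≤ _
        rw [vker, norm_mul, norm_mul, norm_inv, Complex.norm_natCast]
        calc (M : ℝ)⁻¹ * (‖A z‖ * ‖B z‖) ≤ (M : ℝ)⁻¹ * ((‖A z‖ ^ 2 + ‖B z‖ ^ 2) / 2) :=
              mul_le_mul_of_nonneg_left (by nlinarith [sq_nonneg (‖A z‖ - ‖B z‖)]) (by positivity)
          _ = _ := by field_simp
    _ = (2 * (M : ℝ))⁻¹ * (M + 3 * M) := by
        rw [integral_const_mul, integral_add (hint (fun z => ‖A z‖ ^ 2) (hA.norm.pow 2))
          (hint (fun z => ‖B z‖ ^ 2) (hB.norm.pow 2))]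
        simp only [A, B]
        rw [integral_sq_sum _ _ _ (fun a _ b _ h => by simpa using h),
          integral_sq_sum _ _ _ (fun a _ b _ h => by simpa using h)]
        simp [norm_ee]
    _ ≤ 2 := by field_simp; norm_num

lemma vker_eq (M : ℕ) (c : ℝ) : vker M c = fun z => ∑ ab ∈ range M ×ˢ range (3 * M),
    ((M : ℂ)⁻¹ * ee (-(((ab.2 : ℤ) - ab.1 - M : ℤ) * c))) * fourier ((ab.2 : ℤ) - ab.1 - M) z := by
  funext z
  rw [vker, sum_mul_sum, ← sum_product', mul_sum]
  refine sum_congr rfl fun ab _ => ?_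
  rw [show ((ab.2 : ℤ) - ab.1 - M) = -(ab.1 : ℤ) + ((ab.2 : ℤ) - M) by ring, fourier_add]
  rw [show -(((-(ab.1 : ℤ) + ((ab.2 : ℤ) - M) : ℤ) : ℝ) * c)
    = (ab.1 : ℝ) * c + -((((ab.2 : ℤ) - M : ℤ) : ℝ) * c) by push_cast; ring, ee_add]
  ring

lemma coeff_vker (M : ℕ) (c : ℝ) (q : ℤ) : fourierCoeff (vker M c) q
    = (((range M ×ˢ range (3 * M)).filter fun ab => ((ab.2 : ℤ) - ab.1 - M) = q).card : ℂ)
      * ((M : ℂ)⁻¹ * ee (-(q * c))) := by
  rw [vker_eq, fourierCoeff_sum_fourier, ← sum_filter, ← nsmul_eq_mul, ← sum_const]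
  refine sum_congr rfl fun ab hab => ?_
  rw [(mem_filter.1 hab).2]

lemma coeff_vker_low {M : ℕ} (hM : 0 < M) (c : ℝ) {q : ℤ} (hq : |q| ≤ M) :
    fourierCoeff (vker M c) q = ee (-(q * c)) := by
  rw [coeff_vker]
  have hq' := abs_le.1 hq
  have : ((range M ×ˢ range (3 * M)).filter fun ab => ((ab.2 : ℤ) - ab.1 - M) = q).card = M := by
    rw [← card_range M]
    refine card_nbij' (fun ab => ab.1) (fun a => (a, (q + M + a).toNat)) ?_ ?_ ?_ ?_
    · intro ab hab; simp at hab ⊢; omega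
    · intro a ha; simp at ha ⊢; omega
    · intro ab hab; simp at hab; ext <;> simp <;> omega
    · intro a ha; simp
  rw [this, ← mul_assoc, mul_inv_cancel₀ (Nat.cast_ne_zero.2 hM.ne'), one_mul]

lemma coeff_vker_high (M : ℕ) (c : ℝ) {q : ℤ} (hq : 3 * (M : ℤ) < |q|) :
    fourierCoeff (vker M c) q = 0 := by
  rw [coeff_vker]
  have : ((range M ×ˢ range (3 * M)).filter fun ab => ((ab.2 : ℤ) - ab.1 - M) = q) = ∅ := by
    refine filter_eq_empty_iff.2 fun ab hab h => ?_
    simp at hab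
    rcases abs_cases q with ⟨hh, -⟩ | ⟨hh, -⟩ <;> omega
  simp [this]

end

end Vale.Agent.P091
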