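import Mathlib

/-!
Sums over digits, and the choice of a multiple of a rotation with large imaginary part.
-/

namespace Vale.Agent.P091

open Finset
open scoped Real

lemma sum_range_mul {M : Type*} [AddCommMonoid M] (a b : ℕ) (h : ℕ → ℕ → M) :
    ∑ t ∈ range (a * b), h (t / b) (t % b) = ∑ i ∈ range a, ∑ j ∈ range b, h i j := by
  rcases Nat.eq_zero_or_pos b with rfl | hb
  · simp
  rw [← sum_product']
  refine sum_nbij' (fun t => (t / b, t % b)) (fun p => p.1 * b + p.2) ?_ ?_ ?_ ?_ ?_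
  · intro t ht
    simp only [mem_coe, mem_range, mem_product] at ht ⊢
    exact ⟨Nat.div_lt_of_lt_mul (by rwa [mul_comm]), Nat.mod_lt _ hb⟩
  · intro p hp
    simp only [mem_coe, mem_range, mem_product] at hp ⊢
    calc p.1 * b + p.2 < (p.1 + 1) * b := by rw [add_mul, one_mul]; omega
      _ ≤ a * b := Nat.mul_le_mul_right _ hp.1
  · intro t _; exact Nat.div_add_mod' t b
  · intro p hp
    simp only [mem_coe, mem_range, mem_product] at hp
    refine Prod.ext ?_ ?_
    · show (p.1 * b + p.2) / b = p.1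
      rw [mul_comm, Nat.mul_add_div hb, Nat.div_eq_of_lt hp.2, add_zero]
    · show (p.1 * b + p.2) % b = p.2
      rw [Nat.mul_add_mod_self_right, Nat.mod_eq_of_lt hp.2]
  · intro t _; rfl

lemma sum_digits_add (a b : ℕ) (f g : ℕ → ℝ) :
    ∑ t ∈ range (a * b), (f (t / b) + g (t % b))
      = b * ∑ i ∈ range a, f i + a * ∑ j ∈ range b, g j := by
  rw [sum_range_mul a b fun i j => f i + g j]
  simp [sum_add_distrib, mul_sum]

/-- The variance of a sum of functions of independent digits is the sum of the variances. -/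
lemma variance_digits_add (a b : ℕ) (f g : ℕ → ℝ) :
    ((a * b : ℕ) : ℝ) * (∑ t ∈ range (a * b), (f (t / b) + g (t % b)) ^ 2)
        - (∑ t ∈ range (a * b), (f (t / b) + g (t % b))) ^ 2
      = (b : ℝ) ^ 2 * (a * (∑ i ∈ range a, f i ^ 2) - (∑ i ∈ range a, f i) ^ 2)
        + (a : ℝ) ^ 2 * (b * (∑ j ∈ range b, g j ^ 2) - (∑ j ∈ range b, g j) ^ 2) := by
  rw [sum_digits_add, sum_range_mul a b fun i j => (f i + g j) ^ 2]
  have e : ∑ i ∈ range a, ∑ j ∈ range b, (f i + g j) ^ 2
      = b * ∑ i ∈ range a, f i ^ 2 + 2 * (∑ i ∈ range a, f i) * (∑ j ∈ range b, g j)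
        + a * ∑ j ∈ range b, g j ^ 2 := by
    simp only [add_sq, sum_add_distrib, sum_const, card_range, nsmul_eq_mul, ← mul_sum, ← sum_mul,
      mul_assoc]
  rw [e]
  push_cast
  ring

/-- A lower bound for the number of large values of a function with small variance. -/
lemma card_lt_le (n : ℕ) (X : ℕ → ℝ) {μ c v : ℝ} (hc : c < μ)
    (hμ : μ * n ≤ ∑ t ∈ range n, X t)
    (hv : (n : ℝ) * (∑ t ∈ range n, X t ^ 2) - (∑ t ∈ range n, X t) ^ 2 ≤ v * (n : ℝ) ^ 2) :
    (((range n).filter fun t => X t < c).card : ℝ) * (μ - c) ^ 2 ≤ v * n := by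
  rcases Nat.eq_zero_or_pos n with rfl | hn
  · simp
  have hn' : (0 : ℝ) < n := by exact_mod_cast hn
  set S := ∑ t ∈ range n, X t
  have h1 : (((range n).filter fun t => X t < c).card : ℝ) * (μ - c) ^ 2
      ≤ ∑ t ∈ range n, (X t - S / n) ^ 2 := by
    rw [← nsmul_eq_mul, ← sum_const]
    refine le_trans (sum_le_sum fun t ht => ?_)
      (sum_le_sum_of_subset_of_nonneg (filter_subset _ _) fun _ _ _ => sq_nonneg _)
    have h2 := (mem_filter.1 ht).2
    have h3 : μ ≤ S / n := by rw [le_div_iff₀ hn']; exact hμ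
    rw [show (X t - S / n) ^ 2 = (S / n - X t) ^ 2 by ring]
    exact pow_le_pow_left₀ (by linarith) (by linarith) 2
  refine h1.trans ?_
  have h4 : ∑ t ∈ range n, (X t - S / n) ^ 2 = (∑ t ∈ range n, X t ^ 2) - S ^ 2 / n := by
    simp only [sub_sq, sum_add_distrib, sum_sub_distrib, sum_const, card_range, nsmul_eq_mul,
      ← mul_sum, ← sum_mul]
    field_simp
    ring
  rw [h4]
  refine le_of_mul_le_mul_left ?_ hn'
  rw [mul_sub, mul_div_cancel₀ _ hn'.ne']
  linarith

end Vale.Agent.P091
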