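import Vale.Agent.P091.Windows
import Vale.Agent.P091.Stats

/-!
The windowed spike set of `K` levels as a gain function on the cells of a dyadic grid, valid for
every choice of the higher binary digits of the frequency.
-/

namespace Vale.Agent.P091

open Complex Finset
open scoped Real

noncomputable section

/-- The imaginary part bound for the symmetric partial sum of point masses. -/
lemma pSum_re_ge {n : ℕ} (N : ℕ) (x : Fin n → ℝ) (y : ℝ)
    (hne : ∀ k, Real.sin (π * (y - x k)) ≠ 0) :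
    (ee (N * y) * ∑ k, (((n : ℝ)⁻¹ * Real.cot (π * (y - x k)) : ℝ) : ℂ) * ee (-((N : ℝ) * x k))).im
      - 1 ≤ (pSum N x y).re := by
  set a : Fin n → ℝ := fun k => (n : ℝ)⁻¹ * Real.cos (2 * π * N * (y - x k))
  set w : Fin n → ℝ := fun k => (n : ℝ)⁻¹ * Real.cot (π * (y - x k))
  have hD : pSum N x y = ((∑ k, (a k + w k * Real.sin (2 * π * N * (y - x k))) : ℝ) : ℂ) := by
    unfold pSum
    simp only [mul_sum, sum_mul]
    rw [sum_comm, ofReal_sum]
    refine sum_congr rfl fun k _ => ?_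
    have h1 := sum_ee_eq N (hne k)
    simp only [mul_assoc, ← ee_add, ← mul_sum]
    rw [sum_congr rfl fun p _ => show ee (-((p : ℤ) * x k) + (p : ℤ) * y) = ee ((p : ℤ) * (y - x k)) by
      congr 1; ring, h1]
    simp only [a, w]
    push_cast
    ring
  have him : (ee (N * y) * ∑ k, (w k : ℂ) * ee (-((N : ℝ) * x k))).im
      = ∑ k, w k * Real.sin (2 * π * N * (y - x k)) := by
    rw [mul_sum, im_sum]
    refine sum_congr rfl fun k _ => ?_
    rw [mul_left_comm, ← ee_add, im_ofReal_mul, ee_im]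
    congr 1; ring_nf
  have ha : -1 ≤ ∑ k, a k := by
    refine (abs_le.1 ((abs_sum_le_sum_abs _ _).trans
      ((sum_le_sum (g := fun _ => (n : ℝ)⁻¹) fun k _ => ?_).trans ?_))).1
    · simp only [a, abs_mul, abs_inv, Nat.abs_cast]
      exact mul_le_of_le_one_right (by positivity) (Real.abs_cos_le_one _)
    · rcases Nat.eq_zero_or_pos n with rfl | hn
      · simp
      · simp [hn.ne']
  rw [him, hD, ofReal_re, sum_add_distrib]
  linarith

lemma exists_rot_pos (B : ℂ) {θ : ℝ} (h0 : 0 < θ) (h1 : θ ≤ 1 / 2) :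
    ∃ l : ℕ, (l : ℝ) ≤ 1 / θ + 1 ∧ 0 ≤ (B * ee (l * θ)).im ∧
      (θ ≤ 3 / 8 → ‖B‖ / 4 ≤ (B * ee (l * θ)).im) := by
  set φ : ℝ := Complex.arg B / (2 * π) with hφ
  have hB : (‖B‖ : ℂ) * ee φ = B := by
    rw [ee, hφ, mul_div_cancel₀ _ (by positivity)]
    exact norm_mul_exp_arg_mul_I B
  set a : ℝ := (1 / 2 - θ) / 2 with ha
  set v : ℝ := a - φ + ⌈φ - a⌉ with hv
  have hv0 : 0 ≤ v ∧ v < 1 := ⟨by linarith [Int.le_ceil (φ - a)],
    by linarith [Int.ceil_lt_add_one (φ - a)]⟩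
  set l := ⌈v / θ⌉₊ with hl
  have hl1 : v ≤ (l : ℝ) * θ := by rw [← div_le_iff₀ h0]; exact Nat.le_ceil _
  have hlt := Nat.ceil_lt_add_one (show 0 ≤ v / θ by exact div_nonneg hv0.1 h0.le)
  have hl2 : (l : ℝ) * θ < v + θ := by
    have := mul_lt_mul_of_pos_right hlt h0
    rwa [add_mul, one_mul, div_mul_cancel₀ _ h0.ne'] at this
  refine ⟨l, ?_, ?_⟩
  · have : v / θ ≤ 1 / θ := div_le_div_of_nonneg_right hv0.2.le h0.le
    linarith
  set X : ℝ := φ + l * θ - ⌈φ - a⌉ with hX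
  have hX1 : a ≤ X ∧ X ≤ 1 / 2 - a := ⟨by linarith, by linarith⟩
  have him : (B * ee (l * θ)).im = ‖B‖ * Real.sin (2 * π * X) := by
    conv_lhs => rw [← hB]
    rw [mul_assoc, ← ee_add, im_ofReal_mul, show φ + l * θ = X + ((⌈φ - a⌉ : ℤ) : ℝ) by
      rw [hX]; push_cast; ring, ee_add, ee_int, mul_one, ee_im]
  rw [him]
  have hπ := Real.pi_pos
  have hb : 4 * min X (1 / 2 - X) ≤ Real.sin (2 * π * X) := by
    rcases le_total X (1 / 4) with hc | hc
    · rw [min_eq_left (by linarith)]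
      have := Real.mul_le_sin (x := 2 * π * X) (by nlinarith) (by nlinarith)
      rwa [show 2 / π * (2 * π * X) = 4 * X by field_simp; ring] at this
    · rw [min_eq_right (by linarith), show 2 * π * X = π - 2 * π * (1 / 2 - X) by ring, Real.sin_pi_sub]
      have := Real.mul_le_sin (x := 2 * π * (1 / 2 - X)) (by nlinarith) (by nlinarith)
      rwa [show 2 / π * (2 * π * (1 / 2 - X)) = 4 * (1 / 2 - X) by field_simp; ring] at this
  have hm : a ≤ min X (1 / 2 - X) := le_min hX1.1 (by linarith)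
  refine ⟨mul_nonneg (norm_nonneg _) (by linarith), fun h3 => ?_⟩
  have := mul_le_mul_of_nonneg_left (show (1 / 4 : ℝ) ≤ Real.sin (2 * π * X) by linarith)
    (norm_nonneg B)
  linarith

lemma exists_rot (B : ℂ) {θ δ : ℝ} (hδ : 0 < δ) (h0 : δ ≤ θ) (h1 : θ ≤ 1 - δ) :
    ∃ l : ℕ, (l : ℝ) ≤ 1 / δ + 1 ∧ 0 ≤ (B * ee (l * θ)).im ∧
      (θ ≤ 3 / 8 → ‖B‖ / 4 ≤ (B * ee (l * θ)).im) := by
  rcases le_or_gt θ (1 / 2) with h | h
  · obtain ⟨l, hl, hl'⟩ := exists_rot_pos B (lt_of_lt_of_le hδ h0) h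
    exact ⟨l, hl.trans (by linarith [one_div_le_one_div_of_le hδ h0]), hl'⟩
  · obtain ⟨l, hl, hl1, -⟩ := exists_rot_pos (-(starRingEnd ℂ) B) (θ := 1 - θ) (by linarith)
      (by linarith)
    refine ⟨l, hl.trans (by linarith [one_div_le_one_div_of_le hδ (show δ ≤ 1 - θ by linarith)]),
      ?_, fun h3 => absurd h3 (by linarith)⟩
    have e : (ee ((l : ℝ) * (1 - θ))).im = -(ee (l * θ)).im ∧
        (ee ((l : ℝ) * (1 - θ))).re = (ee (l * θ)).re := by
      rw [show (l : ℝ) * (1 - θ) = -(l * θ) + (l : ℕ) by ring, ee_add_nat]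
      simp [ee_im, ee_re]
    simp only [mul_im, neg_re, neg_im, Complex.conj_re, Complex.conj_im, e.1, e.2] at hl1 ⊢
    linarith

variable {K m Q : ℕ}

/-- The cells of the grid `2 ^ -(G₀ + K + 1)` in the middle of a good cell of the window `q`. -/
def winSet (H : Key K → Fin m) (G₀ : ℕ) (q : Fin Q) : Finset ℕ :=
  ((Fintype.piFinset fun r : Fin Q => if (r : ℕ) < q then univ else
      if r = q then univ.filter (fun i => cellNoise H i ≤ (K : ℝ) / 16)
      else {⟨0, Nat.two_pow_pos K⟩})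
    ×ˢ (range (2 * 2 ^ (G₀ - ew K q - 2)) ×ˢ range (2 ^ (K - 1)))).image fun kvs =>
      ((cidx kvs.1 q * 4 + 1) * 2 ^ (G₀ - ew K q - 2) + kvs.2.1) * 2 ^ (K + 1)
        + 2 ^ (K - 2) + kvs.2.2

lemma card_winSet (H : Key K → Fin m) (hK : 2 ≤ K) {G₀ : ℕ} (q : Fin Q)
    (hG : ew K q + 2 ≤ G₀)
    (hH : 2 ^ K ≤ 2 * ((univ : Finset (Fin (2 ^ K))).filter fun i => cellNoise H i ≤ (K : ℝ) / 16).card) :
    2 ^ (G₀ + K + 1) ≤ 64 * 4096 ^ (q : ℕ) * (winSet H G₀ q).card ∧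
      32 * 4096 ^ (q : ℕ) * (winSet H G₀ q).card ≤ 2 ^ (G₀ + K + 1) := by
  classical
  rw [winSet, card_image_of_injOn]
  · rw [card_product, card_product, card_range, card_range, Fintype.card_piFinset]
    simp only [apply_ite card, card_singleton, card_univ, Fintype.card_fin]
    rw [prod_ite, prod_ite, prod_const_one, mul_one]
    have e1 : (univ.filter fun r : Fin Q => (r : ℕ) < q) = Finset.Iio q := by
      ext r; simp [Fin.lt_def, -Fin.val_fin_lt]
    have e2 : (univ.filter fun r : Fin Q => ¬(r : ℕ) < q).filter (fun r => r = q) = {q} := by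
      ext r; simp [Fin.ext_iff, -Fin.val_fin_lt]; omega
    rw [e1, e2, prod_const, prod_const, Fin.card_Iio, card_singleton, pow_one, ← pow_mul]
    set g := ((univ : Finset (Fin (2 ^ K))).filter fun i => cellNoise H i ≤ (K : ℝ) / 16).card
    have hg : g ≤ 2 ^ K := le_trans (card_filter_le _ _) (by simp)
    have hpow : 2 ^ (G₀ + K + 1)
        = 32 * 4096 ^ (q : ℕ) * (2 ^ (K * q) * 2 ^ K * (2 * 2 ^ (G₀ - ew K q - 2) * 2 ^ (K - 1))) := by
      rw [show (4096 : ℕ) = 2 ^ 12 by norm_num, ← pow_mul, show (32 : ℕ) = 2 ^ 5 by norm_num]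
      simp only [← pow_succ', ← pow_add]
      congr 1
      unfold ew at hG ⊢
      have : (q : ℕ) * (K + 12) = K * q + 12 * q := by ring
      omega
    constructor
    · rw [hpow]
      calc 32 * 4096 ^ (q : ℕ) * (2 ^ (K * q) * 2 ^ K * (2 * 2 ^ (G₀ - ew K q - 2) * 2 ^ (K - 1)))
          ≤ 32 * 4096 ^ (q : ℕ) * (2 ^ (K * q) * (2 * g) * (2 * 2 ^ (G₀ - ew K q - 2) * 2 ^ (K - 1))) := by
            gcongr
        _ = _ := by ring
    · rw [hpow]; gcongr
  · rintro ⟨k, v, s⟩ h ⟨k', v', s'⟩ h' he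
    simp only [mem_coe, mem_product, mem_range, Fintype.mem_piFinset] at h h'
    obtain ⟨hk, hv, hs⟩ := h
    obtain ⟨hk', hv', hs'⟩ := h'
    set W := 2 ^ (G₀ - ew K q - 2) with hW
    have hW0 : 0 < W := by positivity
    have hp : 2 ^ (K - 2) + 2 ^ (K - 1) ≤ 2 ^ (K + 1) := by
      have h1 := Nat.pow_le_pow_right two_pos (show K - 2 ≤ K by omega)
      have h2 := Nat.pow_le_pow_right two_pos (show K - 1 ≤ K by omega)
      rw [pow_succ]; omega
    simp only at he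
    have hs2 : s = s' := by
      have := congrArg (· % 2 ^ (K + 1)) he
      simp only [add_assoc, Nat.mul_add_mod_self_right] at this
      rw [Nat.mod_eq_of_lt (by omega), Nat.mod_eq_of_lt (by omega)] at this
      omega
    subst hs2
    have he' := Nat.eq_of_mul_eq_mul_right (Nat.two_pow_pos (K + 1))
      (Nat.add_right_cancel (Nat.add_right_cancel he))
    have hc : cidx k q = cidx k' q := by
      rcases lt_trichotomy (cidx k q) (cidx k' q) with h | h | h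
      · have := Nat.mul_le_mul_right W (show cidx k q * 4 + 1 + 4 ≤ cidx k' q * 4 + 1 by omega)
        rw [add_mul _ 4 W] at this; omega
      · exact h
      · have := Nat.mul_le_mul_right W (show cidx k' q * 4 + 1 + 4 ≤ cidx k q * 4 + 1 by omega)
        rw [add_mul _ 4 W] at this; omega
    rw [hc] at he'
    have hvv : v = v' := by omega
    subst hvv
    have hkk : k = k' := funext fun r => by
      by_cases hr : (r : ℕ) ≤ q
      · have := cidx_inj hc r hr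
        rw [kk_fin, kk_fin] at this
        exact Fin.ext this
      · have h1 := hk r; have h2 := hk' r
        rw [if_neg (by omega), if_neg (fun e => hr (by rw [e]))] at h1 h2
        rw [mem_singleton] at h1 h2
        rw [h1, h2]
    subst hkk; rfl

lemma of_mem_winSet (H : Key K → Fin m) (hK : 2 ≤ K) {G₀ : ℕ} {q : Fin Q} (hG : ew K q + 2 ≤ G₀)
    {t : ℕ} (ht : t ∈ winSet H G₀ q) :
    ∃ k : Fin Q → Fin (2 ^ K), cellNoise H (k q) ≤ (K : ℝ) / 16 ∧
      (∀ y : ℝ, (t : ℝ) < y * 2 ^ (G₀ + K + 1) → y * 2 ^ (G₀ + K + 1) < t + 1 → InCell k q y) ∧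
      2 ^ (K - 2) ≤ t % 2 ^ (K + 1) ∧ t % 2 ^ (K + 1) < 3 * 2 ^ (K - 2) := by
  obtain ⟨⟨k, v, s⟩, h, rfl⟩ := mem_image.1 ht
  simp only [mem_product, mem_range, Fintype.mem_piFinset] at h
  obtain ⟨hk, hv, hs⟩ := h
  set W := 2 ^ (G₀ - ew K q - 2) with hW
  set c := cidx k q
  have h21 : 2 ^ (K - 1) = 2 * 2 ^ (K - 2) := by rw [← pow_succ']; congr 1; omega
  have h22 : 2 ^ (K + 1) = 8 * 2 ^ (K - 2) := by
    rw [show (8 : ℕ) = 2 ^ 3 by norm_num, ← pow_add]; congr 1; omega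
  refine ⟨k, by simpa using hk q, fun y hy1 hy2 => ?_, ?_, ?_⟩
  · dsimp only at hy1 hy2
    set a := (c * 4 + 1) * W + v with ha
    have hpow : (2 : ℝ) ^ (G₀ + K + 1) = (W : ℝ) * 4 * 2 ^ (K + 1) * 2 ^ ew K q := by
      rw [hW]; push_cast
      rw [show (4 : ℝ) = 2 ^ 2 by norm_num, ← pow_add, ← pow_add, ← pow_add]
      congr 1; omega
    have ha1 : ((c : ℝ) * 4 + 1) * W ≤ a := by
      exact_mod_cast (show (c * 4 + 1) * W ≤ a by omega)
    have ha2 : (a : ℝ) + 1 ≤ ((c : ℝ) * 4 + 3) * W := by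
      exact_mod_cast (show a + 1 ≤ (c * 4 + 3) * W by
        have : (c * 4 + 3) * W = (c * 4 + 1) * W + 2 * W := by ring
        omega)
    have hs' : (s : ℝ) + (2 ^ (K - 2) : ℕ) + 1 ≤ 2 ^ (K + 1) := by
      exact_mod_cast (show s + 2 ^ (K - 2) + 1 ≤ 2 ^ (K + 1) by omega)
    have hs0 : (0 : ℝ) ≤ (s : ℝ) + (2 ^ (K - 2) : ℕ) := by positivity
    push_cast at hy1 hy2 hs' hs0
    rw [hpow] at hy1 hy2
    have hP : (0 : ℝ) < 2 ^ (K + 1) := by positivity
    have hW0 : (0 : ℝ) < W := by rw [hW]; positivity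
    have g1 : (a : ℝ) < y * 2 ^ ew K q * (4 * W) := by
      refine lt_of_mul_lt_mul_right ?_ hP.le
      linarith
    have g2 : y * 2 ^ ew K q * (4 * W) < a + 1 := by
      refine lt_of_mul_lt_mul_right ?_ hP.le
      linarith
    constructor
    · rw [div_le_iff₀ (by positivity)]
      nlinarith
    · rw [le_div_iff₀ (by positivity)]
      nlinarith
  · dsimp only; rw [add_assoc, Nat.mul_add_mod_self_right, Nat.mod_eq_of_lt (by omega)]; omega
  · dsimp only; rw [add_assoc, Nat.mul_add_mod_self_right, Nat.mod_eq_of_lt (by omega)]; omega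

lemma InCell.not_both (H : Key K → Fin m) (hQK : Q ≤ 2 ^ K) {k k' : Fin Q → Fin (2 ^ K)}
    {p q : Fin Q} (hpq : (p : ℕ) < q) {y : ℝ} (h : InCell k p y) (h' : InCell k' q y) : False := by
  have hmem : k' ∈ pre k' p := by simp [pre]
  have h1 := h'.outer_pos H hQK hpq hmem
  rw [sub_self, sub_zero] at h1
  obtain ⟨b1, b2⟩ := xw_bounds H hQK k' p.2
  rw [(half_pow_ew K _).1, cpos, ← add_div] at b2
  rw [cpos] at b1
  have hE : (0 : ℝ) < 2 ^ ew K (p : ℕ) := by positivity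
  rw [div_le_iff₀ hE] at b1
  rw [le_div_iff₀ hE] at b2
  obtain ⟨a1, a2⟩ := h
  rw [div_le_iff₀ hE] at a1
  rw [le_div_iff₀ hE] at a2
  rw [sub_mul, abs_le] at h1
  rcases le_or_gt (cidx k' p) (cidx k p) with hc | hc
  · have : (cidx k' p : ℝ) ≤ cidx k p := by exact_mod_cast hc
    linarith
  · have : (cidx k p : ℝ) + 1 ≤ cidx k' p := by exact_mod_cast hc
    linarith

/-- The choice of the low digits of the order. -/
lemma choose_order {n G₀ : ℕ} (x : Fin n → ℝ) (hK : 2 ≤ K)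
    (hlat : ∀ a, ∃ z : ℤ, (2 : ℝ) ^ G₀ * x a = z) (f : ℕ) (hf : f ≤ 2 ^ G₀) {t : ℕ} {y : ℝ}
    (hy1 : (t : ℝ) < y * 2 ^ (G₀ + K + 1)) (hy2 : y * 2 ^ (G₀ + K + 1) < t + 1)
    (hb : 2 ≤ t % 2 ^ (K + 1) ∧ t % 2 ^ (K + 1) + 2 < 2 ^ (K + 1)) (P : ℕ) :
    ∃ N < 2 ^ (G₀ + K + 1), -1 ≤ (pSum (N + 2 ^ (G₀ + K + 1) * P) x y).re ∧
      (t % 2 ^ (K + 1) < 3 * 2 ^ (K - 2) →
        ‖∑ a, (((n : ℝ)⁻¹ * Real.cot (π * (y - x a)) : ℝ) : ℂ) * ee (-((f : ℝ) * x a))‖ / 4 - 1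
          ≤ (pSum (N + 2 ^ (G₀ + K + 1) * P) x y).re) := by
  set j := t % 2 ^ (K + 1) with hj
  set θ : ℝ := y * 2 ^ G₀ - (t / 2 ^ (K + 1) : ℕ) with hθ
  have hdec : (t : ℝ) = (t / 2 ^ (K + 1) : ℕ) * 2 ^ (K + 1) + j := by
    rw [hj]; exact_mod_cast (Nat.div_add_mod' t (2 ^ (K + 1))).symm
  have hGr : (2 : ℝ) ^ (G₀ + K + 1) = 2 ^ G₀ * 2 ^ (K + 1) := by rw [add_assoc, pow_add]
  rw [hGr, hdec] at hy1 hy2
  have hθ1 : (j : ℝ) < θ * 2 ^ (K + 1) ∧ θ * 2 ^ (K + 1) < j + 1 := by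
    rw [hθ]; constructor <;> linarith
  set M : ℕ := 2 ^ (G₀ + K + 1) * P with hM
  set A : ℂ := ∑ a, (((n : ℝ)⁻¹ * Real.cot (π * (y - x a)) : ℝ) : ℂ) * ee (-((f : ℝ) * x a))
    with hA
  set Bc : ℂ := ee (((f + M : ℕ) : ℝ) * y) * A with hBc
  have hδ : ((1 : ℝ) / 2) ^ K ≤ θ ∧ θ ≤ 1 - (1 / 2) ^ K := by
    rw [div_pow, one_pow]
    have h2 : (2 : ℝ) ≤ j := by exact_mod_cast hb.1
    have h3 : (j : ℝ) + 3 ≤ 2 ^ (K + 1) := by exact_mod_cast (show j + 3 ≤ 2 ^ (K + 1) by omega)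
    have hs : (2 : ℝ) ^ (K + 1) = 2 * 2 ^ K := by rw [pow_succ]; ring
    constructor
    · rw [div_le_iff₀ (by positivity)]; nlinarith
    · rw [le_sub_iff_add_le, ← le_sub_iff_add_le', div_le_iff₀ (by positivity)]; nlinarith
  obtain ⟨l, hl, hl0, hl4⟩ := exists_rot Bc (θ := θ) (by positivity) hδ.1 hδ.2
  have hlN : l ≤ 2 ^ K + 1 := by
    rw [div_pow, one_pow, one_div_one_div] at hl
    exact_mod_cast hl
  set N := f + l * 2 ^ G₀ with hN
  have hne : ∀ a, Real.sin (π * (y - x a)) ≠ 0 := by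
    intro a hs
    obtain ⟨m, hm⟩ := Real.sin_eq_zero_iff.1 hs
    obtain ⟨z, hz⟩ := hlat a
    have hd : y - x a = (m : ℝ) := mul_left_cancel₀ Real.pi_ne_zero (by rw [← hm]; ring)
    have hyi : y * 2 ^ G₀ = ((z + m * 2 ^ G₀ : ℤ) : ℝ) := by
      push_cast; rw [← hz, show y = x a + m by linarith]; ring
    set u : ℤ := z + m * 2 ^ G₀ - (t / 2 ^ (K + 1) : ℕ) with hu
    have hθu : θ = (u : ℝ) := by
      rw [hθ, hu, hyi]; generalize t / 2 ^ (K + 1) = T; push_cast; ring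
    have h1 : (0 : ℝ) < θ := lt_of_lt_of_le (by positivity) hδ.1
    have h2 : θ < 1 := lt_of_le_of_lt hδ.2 (by linarith [show (0 : ℝ) < (1 / 2) ^ K by positivity])
    rw [hθu] at h1 h2
    have : (0 : ℤ) < u := by exact_mod_cast h1
    have : u < (1 : ℤ) := by exact_mod_cast h2
    omega
  have hphase : ∀ a, ee (-(((N + M : ℕ) : ℝ) * x a)) = ee (-((f : ℝ) * x a)) := by
    intro a
    obtain ⟨z, hz⟩ := hlat a
    rw [show -(((N + M : ℕ) : ℝ) * x a)
      = -((f : ℝ) * x a) + ((-((l + 2 ^ (K + 1) * P : ℕ) * z) : ℤ) : ℝ) by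
      rw [hN, hM]; push_cast; rw [← hz, add_assoc G₀, pow_add]; ring, ee_add, ee_int, mul_one]
  have hrot : ee (((N + M : ℕ) : ℝ) * y) * A = Bc * ee (l * θ) := by
    rw [hBc, mul_right_comm, ← ee_add]
    congr 1
    rw [show ((N + M : ℕ) : ℝ) * y = (((f + M : ℕ) : ℝ) * y + l * θ)
      + ((l * (t / 2 ^ (K + 1)) : ℕ) : ℝ) by rw [hN, hθ]; push_cast; ring, ee_add_nat]
  have hps := pSum_re_ge (N + M) x y hne
  simp only [hphase] at hps
  rw [← hA, hrot] at hps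
  refine ⟨N, ?_, by linarith, fun hj' => ?_⟩
  · have h1 := Nat.mul_le_mul_right (2 ^ G₀) hlN
    have h2 : 2 ^ (G₀ + K + 1) = 2 ^ G₀ * 2 ^ K * 2 := by
      rw [mul_assoc, ← pow_succ, ← pow_add, add_assoc]
    have h3 : 2 ^ G₀ * 3 ≤ 2 ^ G₀ * 2 ^ K := Nat.mul_le_mul_left _
      (le_trans (by norm_num) (Nat.pow_le_pow_right two_pos hK))
    rw [add_mul, one_mul, mul_comm (2 ^ K)] at h1
    have : 0 < 2 ^ G₀ := by positivity
    omega
  · have hθ3 : θ ≤ 3 / 8 := by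
      have h5 : (j : ℝ) + 1 ≤ 3 * 2 ^ (K - 2) := by exact_mod_cast hj'
      have h6 : (2 : ℝ) ^ (K + 1) = 8 * 2 ^ (K - 2) := by
        rw [show (8 : ℝ) = 2 ^ 3 by norm_num, ← pow_add]; congr 1; omega
      rw [h6] at hθ1
      nlinarith [show (0 : ℝ) < 2 ^ (K - 2) by positivity]
    have h7 := hl4 hθ3
    have h8 : ‖Bc‖ = ‖A‖ := by rw [hBc, norm_mul, norm_ee, one_mul]
    linarith

/-- The gain at the level `K` of the windowed gadget. -/
theorem exists_gadget (hK : 1600 ≤ K) (hQ : 3 ≤ Q) (hQK : Q ≤ K) :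
    ∃ (G n : ℕ) (x : Fin n → ℝ) (X B : ℕ → ℝ), 0 < n ∧ K ≤ G ∧ G ≤ 16100 * Q * K ^ 2 ∧
      (Q : ℝ) / 4096 * 2 ^ G ≤ ∑ t ∈ range (2 ^ G), X t ∧
      (2 : ℝ) ^ G * (∑ t ∈ range (2 ^ G), X t ^ 2) - (∑ t ∈ range (2 ^ G), X t) ^ 2
        ≤ 4096 ^ Q * ((2 : ℝ) ^ G) ^ 2 ∧
      (∀ t, 0 ≤ B t) ∧ ∑ t ∈ range (2 ^ G), B t ≤ 2 * (1 / 2) ^ K * 2 ^ G ∧
      ∀ t < 2 ^ G, B t < 1 → ∀ y : ℝ, (t : ℝ) < y * 2 ^ G → y * 2 ^ G < t + 1 → ∀ P : ℕ,
        ∃ N < 2 ^ G, X t ≤ (pSum (N + 2 ^ G * P) x y).re / K := by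
  classical
  obtain ⟨H, hH⟩ := exists_hash (K := K) (by omega)
  set G₀ := lat K (8000 * K) Q with hG₀
  set G := G₀ + K + 1 with hG
  have hQ2 : Q ≤ 2 ^ K := hQK.trans (Nat.le_of_lt (Nat.lt_two_pow_self))
  have hK' : (1600 : ℝ) ≤ K := by exact_mod_cast hK
  have hew : ∀ q : Fin Q, ew K q + 2 ≤ G₀ := fun q => by
    have := ew_mono K q.2.le
    simp only [hG₀, lat, off]; omega
  set e := (finFunctionFinEquiv : (Fin Q → Fin (2 ^ K)) ≃ Fin ((2 ^ K) ^ Q))
  set x : Fin ((2 ^ K) ^ Q) → ℝ := fun a => xw H (e.symm a) with hx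
  set X₀ : ℕ → ℝ := fun t => ∑ q : Fin Q, if t ∈ winSet H G₀ q then (4096 : ℝ) ^ (q : ℕ) / 32 else 0
    with hX₀
  set B : ℕ → ℝ := fun t =>
    if t % 2 ^ (K + 1) < 2 ∨ 2 ^ (K + 1) ≤ t % 2 ^ (K + 1) + 2 then 1 else 0 with hB
  have hdisj : ∀ (p q : Fin Q) (t : ℕ), t ∈ winSet H G₀ p → t ∈ winSet H G₀ q → p = q := by
    intro p q t hp hq
    obtain ⟨k, -, hk, -⟩ := of_mem_winSet H (by omega) (hew p) hp
    obtain ⟨k', -, hk', -⟩ := of_mem_winSet H (by omega) (hew q) hq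
    set y : ℝ := ((t : ℝ) + 1 / 2) / 2 ^ (G₀ + K + 1)
    have ey : y * 2 ^ (G₀ + K + 1) = t + 1 / 2 := div_mul_cancel₀ _ (by positivity)
    have h1 := hk y (by linarith) (by linarith)
    have h2 := hk' y (by linarith) (by linarith)
    rcases lt_trichotomy (p : ℕ) q with h | h | h
    · exact (h1.not_both H hQ2 h h2).elim
    · exact Fin.ext h
    · exact (h2.not_both H hQ2 h h1).elim
  have hsub : ∀ q : Fin Q, winSet H G₀ q ⊆ range (2 ^ G) := by
    intro q t ht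
    obtain ⟨k, -, hk, -⟩ := of_mem_winSet H (by omega) (hew q) ht
    set y : ℝ := ((t : ℝ) + 1 / 2) / 2 ^ (G₀ + K + 1)
    have ey : y * 2 ^ (G₀ + K + 1) = t + 1 / 2 := div_mul_cancel₀ _ (by positivity)
    have h1 := (hk y (by linarith) (by linarith)).range.2
    have h2 : (t : ℝ) < 2 ^ G := by
      have := mul_le_mul_of_nonneg_right h1 (show (0 : ℝ) ≤ 2 ^ (G₀ + K + 1) by positivity)
      rw [hG]; linarith [show (0 : ℝ) ≤ 2 ^ (G₀ + K + 1) by positivity]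
    rw [mem_range]; exact_mod_cast h2
  have hcard := fun q => card_winSet H (by omega) q (hew q) hH
  have hX₀sum : ∀ j : ℕ, j ≠ 0 → ∑ t ∈ range (2 ^ G), X₀ t ^ j
      = ∑ q : Fin Q, ((winSet H G₀ q).card : ℝ) * ((4096 : ℝ) ^ (q : ℕ) / 32) ^ j := by
    intro j hj
    have e1 : ∀ t, X₀ t ^ j = ∑ q : Fin Q,
        if t ∈ winSet H G₀ q then ((4096 : ℝ) ^ (q : ℕ) / 32) ^ j else 0 := by
      intro t
      by_cases h : ∃ q : Fin Q, t ∈ winSet H G₀ q
      · obtain ⟨q, hq⟩ := h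
        have hne : ∀ r : Fin Q, r ≠ q → t ∉ winSet H G₀ r := fun r hr h' => hr (hdisj r q t h' hq)
        simp only [hX₀]
        rw [sum_eq_single q (fun r _ hr => if_neg (hne r hr)) (fun h => absurd (mem_univ q) h),
          sum_eq_single q (fun r _ hr => if_neg (hne r hr)) (fun h => absurd (mem_univ q) h),
          if_pos hq, if_pos hq]
      · push Not at h
        simp [hX₀, h, hj]
    simp only [e1]
    rw [sum_comm]
    refine sum_congr rfl fun q _ => ?_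
    rw [← sum_filter, filter_mem_eq_inter, inter_eq_right.2 (hsub q), sum_const, nsmul_eq_mul]
  have hmean : (Q : ℝ) / 2048 * 2 ^ G ≤ ∑ t ∈ range (2 ^ G), X₀ t := by
    have := hX₀sum 1 one_ne_zero
    simp only [pow_one] at this
    rw [this, show (Q : ℝ) / 2048 * 2 ^ G = ∑ _q : Fin Q, (2 : ℝ) ^ G / 2048 by simp; ring]
    refine sum_le_sum fun q _ => ?_
    have h1 : (2 : ℝ) ^ G ≤ 64 * 4096 ^ (q : ℕ) * ((winSet H G₀ q).card : ℝ) := by
      exact_mod_cast (hcard q).1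
    linarith
  have hsq : ∑ t ∈ range (2 ^ G), X₀ t ^ 2 ≤ 4096 ^ Q * 2 ^ G := by
    rw [hX₀sum 2 two_ne_zero]
    have hgeo : ∑ q : Fin Q, (4096 : ℝ) ^ (q : ℕ) ≤ 4096 ^ Q := by
      rw [Fin.sum_univ_eq_sum_range (fun q => (4096 : ℝ) ^ q)]
      exact_mod_cast (Nat.geomSum_lt (m := 4096) (by norm_num) (fun i hi => mem_range.1 hi)).le
    refine le_trans (sum_le_sum fun q _ => ?_)
      (le_of_eq_of_le (sum_mul _ _ _).symm (mul_le_mul_of_nonneg_right hgeo (by positivity)))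
    have h1 : 32 * 4096 ^ (q : ℕ) * ((winSet H G₀ q).card : ℝ) ≤ (2 : ℝ) ^ G := by
      exact_mod_cast (hcard q).2
    have h2 := mul_le_mul_of_nonneg_right h1
      (show (0 : ℝ) ≤ (4096 : ℝ) ^ (q : ℕ) / 32768 by positivity)
    have h3 : (0 : ℝ) ≤ 4096 ^ (q : ℕ) * 2 ^ G := by positivity
    linarith
  refine ⟨G, (2 ^ K) ^ Q, x, fun t => X₀ t - 1 / K, B, by positivity, by omega, ?_, ?_, ?_,
    fun t => by simp only [hB]; split <;> norm_num, ?_, ?_⟩
  · -- the height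
    have h1 : ew K Q ≤ 14 * (Q * K) + 2 * K := by unfold ew; nlinarith
    simp only [hG, hG₀, lat, off, base]
    nlinarith [Nat.mul_le_mul (show 3 ≤ Q by omega) (show 1600 * 1600 ≤ K * K from Nat.mul_le_mul hK hK)]
  · rw [sum_sub_distrib, sum_const, card_range, nsmul_eq_mul]
    push_cast
    have h1 : 1 / (K : ℝ) ≤ 1 / 1600 := one_div_le_one_div_of_le (by norm_num) hK'
    have h2 : (3 : ℝ) ≤ Q := by exact_mod_cast hQ
    nlinarith [mul_le_mul_of_nonneg_left (show 1 / (K : ℝ) ≤ (Q : ℝ) / 4096 by linarith)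
      (show (0 : ℝ) ≤ 2 ^ G by positivity)]
  · simp only [sub_sq, sum_add_distrib, sum_sub_distrib, sum_const, card_range, nsmul_eq_mul,
      ← sum_mul, ← mul_sum]
    push_cast
    nlinarith [sq_nonneg (∑ t ∈ range (2 ^ G), X₀ t),
      mul_le_mul_of_nonneg_left hsq (show (0 : ℝ) ≤ 2 ^ G by positivity)]
  · have hGeq : 2 ^ G = 2 ^ G₀ * 2 ^ (K + 1) := by rw [← pow_add]; congr 1
    rw [hGeq]
    simp only [hB]
    rw [sum_range_mul (2 ^ G₀) (2 ^ (K + 1))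
      fun _ j => if j < 2 ∨ 2 ^ (K + 1) ≤ j + 2 then (1 : ℝ) else 0, sum_const, card_range, nsmul_eq_mul,
      sum_boole]
    have hc : ((range (2 ^ (K + 1))).filter fun j => j < 2 ∨ 2 ^ (K + 1) ≤ j + 2).card ≤ 4 := by
      refine le_trans (card_le_card (t := ({0, 1, 2 ^ (K + 1) - 2, 2 ^ (K + 1) - 1} : Finset ℕ))
        fun j hj => ?_) card_le_four
      simp only [mem_filter, mem_range] at hj
      simp only [mem_insert, mem_singleton]
      omega
    refine le_of_le_of_eq (mul_le_mul_of_nonneg_left (Nat.cast_le.2 hc) (by positivity)) ?_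
    rw [hG, div_pow, one_pow, pow_add, pow_add]
    push_cast
    field_simp
    ring
  · intro t _ hBt y hy1 hy2 P
    simp only [hB] at hBt
    split_ifs at hBt with hb
    · exact absurd hBt (lt_irrefl 1)
    push Not at hb
    have hlat : ∀ a, ∃ z : ℤ, (2 : ℝ) ^ G₀ * x a = z := fun a => xw_lattice H (e.symm a)
    have hKpos : (0 : ℝ) < K := by linarith
    by_cases h : ∃ q : Fin Q, t ∈ winSet H G₀ q
    · obtain ⟨q, hq⟩ := h
      obtain ⟨k, hgood, hcell, hj1, hj2⟩ := of_mem_winSet H (by omega) (hew q) hq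
      have hf : fw H q (k q) ≤ 2 ^ G₀ := by
        have h1 := Nat.mul_le_mul_right (2 ^ off K (8000 * K) Q q) (freq_le H (k q))
        rw [← pow_add] at h1
        refine h1.trans (Nat.pow_le_pow_right two_pos ?_)
        have := Nat.mul_le_mul_right (8000 * K * K + 3 * K + 8) q.2.le
        simp only [hG₀, lat, off]; omega
      obtain ⟨N, hN, hN0, hN4⟩ := choose_order x (by omega) hlat _ hf hy1 hy2 hb P
      refine ⟨N, hN, ?_⟩
      have hsum : ∑ a, ((((((2 ^ K) ^ Q : ℕ) : ℝ))⁻¹ * Real.cot (π * (y - x a)) : ℝ) : ℂ)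
          * ee (-((fw H q (k q) : ℝ) * x a))
          = ∑ k' : Fin Q → Fin (2 ^ K),
            (wt H y k' : ℂ) * ee (-((fw H q (k q) : ℝ) * xw H k')) := by
        rw [← Equiv.sum_comp e]
        refine sum_congr rfl fun k' _ => ?_
        simp only [hx, Equiv.symm_apply_apply, wt]
        push_cast
        rw [inv_pow]
      have h4 := hN4 hj2
      rw [hsum] at h4
      have hw := window_sum_ge H hK hQK k q hgood (hcell y hy1 hy2)
      have hX : X₀ t = (4096 : ℝ) ^ (q : ℕ) / 32 := by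
        simp only [hX₀]
        rw [sum_eq_single q (fun r _ hr => if_neg fun h' => hr (hdisj r q t h' hq))
          (fun h => absurd (mem_univ q) h), if_pos hq]
      show X₀ t - 1 / K ≤ _
      rw [hX, le_div_iff₀ hKpos, sub_mul, div_mul_cancel₀ _ hKpos.ne']
      have hD : (1 : ℝ) ≤ 4096 ^ (q : ℕ) := one_le_pow₀ (by norm_num)
      nlinarith
    · push Not at h
      obtain ⟨N, hN, hN0, -⟩ := choose_order x (by omega) hlat 0 (Nat.zero_le _) hy1 hy2 hb P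
      refine ⟨N, hN, ?_⟩
      show X₀ t - 1 / K ≤ _
      rw [show X₀ t = 0 by simp [hX₀, h], le_div_iff₀ hKpos, sub_mul, div_mul_cancel₀ _ hKpos.ne']
      linarith

end

end Vale.Agent.P091
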