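import Vale.Agent.P091.Kernel

/-!
Bit hashing: an integer frequency and fine shifts realising an approximate comparison
`k < i` through the phase `exp (2 π i N x)`.
-/

namespace Vale.Agent.P091

open Complex Finset
open scoped Real

noncomputable section

variable {K m : ℕ}

/-- A key: a level and the bits above it. -/
abbrev Key (K : ℕ) := Fin K × Fin (2 ^ K)

/-- The key of the level `s` of the index `k`. -/
def key (s : Fin K) (k : Fin (2 ^ K)) : Key K :=
  (s, ⟨(k : ℕ) / 2 ^ ((s : ℕ) + 1), lt_of_le_of_lt (Nat.div_le_self _ _) k.2⟩)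

/-- The coordinate attached to the level `s` of `k`. -/
def pos (H : Key K → Fin m) (s : Fin K) (k : Fin (2 ^ K)) : ℕ :=
  (s : ℕ) + K * (H (key s k) : ℕ)

/-- The base exponent. -/
def base (K : ℕ) : ℕ := K + 5

/-- The fine shift of `k`. -/
def dlt (H : Key K → Fin m) (k : Fin (2 ^ K)) : ℝ :=
  ∑ s : Fin K, if Nat.testBit k s then (1 / 2 : ℝ) ^ (base K + 1 + pos H s k) else 0

/-- The frequency of `i`. -/
def freq (H : Key K → Fin m) (i : Fin (2 ^ K)) : ℕ :=
  ∑ s : Fin K, if Nat.testBit i s then 0 else 2 ^ (base K + pos H s i)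

/-- The spike position of `k`. -/
def spike (H : Key K → Fin m) (k : Fin (2 ^ K)) : ℝ :=
  ((k : ℕ) : ℝ) / 2 ^ (K + 2) + dlt H k

/-- The weight of a pair of coordinates. -/
def gw (p q : ℕ) : ℝ := if p ≤ q then (1 / 2 : ℝ) ^ (q - p + 1) else 0

lemma gw_nonneg (p q : ℕ) : 0 ≤ gw p q := by unfold gw; split <;> positivity

lemma gw_self (p : ℕ) : gw p p = 1 / 2 := by simp [gw]

lemma pow_mul_half_eq (p q : ℕ) :
    ∃ z : ℕ, (2 : ℝ) ^ (base K + p) * (1 / 2) ^ (base K + 1 + q) = gw p q + z := by
  by_cases h : p ≤ q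
  · refine ⟨0, ?_⟩
    rw [gw, if_pos h, show base K + 1 + q = (base K + p) + (q - p + 1) by omega, pow_add (1/2 : ℝ),
      ← mul_assoc, ← mul_pow]
    norm_num
  · refine ⟨2 ^ (p - q - 1), ?_⟩
    rw [gw, if_neg h, show base K + p = (base K + 1 + q) + (p - q - 1) by omega, pow_add (2 : ℝ),
      mul_right_comm, ← mul_pow]
    push_cast
    norm_num

lemma sum_gw_le (p D : ℕ) : ∑ q ∈ range D, gw p q ≤ 1 := by
  have hgeo : ∀ L : ℕ, ∑ l ∈ range L, (1 / 2 : ℝ) ^ (l + 1) ≤ 1 := by
    intro L
    have h : ∑ l ∈ range L, (1 / 2 : ℝ) ^ (l + 1) = 1 - (1 / 2 : ℝ) ^ L := by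
      induction L with
      | zero => simp
      | succ L ih => rw [sum_range_succ, ih]; ring
    rw [h]
    have : (0 : ℝ) ≤ (1 / 2 : ℝ) ^ L := by positivity
    linarith
  unfold gw
  rw [← sum_filter]
  refine le_trans (le_of_eq ?_) (hgeo (D - p))
  refine sum_nbij' (fun q => q - p) (fun l => l + p) ?_ ?_ ?_ ?_ ?_
  · intro q hq; simp at hq ⊢; omega
  · intro l hl; simp at hl ⊢; omega
  · intro q hq; simp at hq ⊢; omega
  · intro l hl; simp
  · intro q hq; simp

lemma exists_top {i k : Fin (2 ^ K)} (h : i ≠ k) :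
    ∃ p : Fin K, Nat.testBit i p ≠ Nat.testBit k p ∧
      ∀ j : ℕ, (p : ℕ) < j → Nat.testBit i j = Nat.testBit k j := by
  classical
  have hbig : ∀ (a : Fin (2 ^ K)) (j : ℕ), K ≤ j → Nat.testBit a j = false := fun a j hj =>
    Nat.testBit_eq_false_of_lt (lt_of_lt_of_le a.2 (Nat.pow_le_pow_right two_pos hj))
  set S := (range K).filter fun j => Nat.testBit i j ≠ Nat.testBit k j with hS
  have hne : S.Nonempty := by
    by_contra hS0
    rw [not_nonempty_iff_eq_empty] at hS0
    apply h
    refine Fin.ext (Nat.eq_of_testBit_eq fun j => ?_)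
    by_cases hj : j < K
    · by_contra hne
      have : j ∈ S := by simp [hS, hj, hne]
      simp [hS0] at this
    · rw [hbig i j (by omega), hbig k j (by omega)]
  have hmem := mem_filter.1 (S.max'_mem hne)
  refine ⟨⟨S.max' hne, mem_range.1 hmem.1⟩, hmem.2, fun j hj => ?_⟩
  by_cases hjK : j < K
  · by_contra hne'
    have hjS : j ∈ S := by simp [hS, hjK, hne']
    have h2 : S.max' hne < j := hj
    have := S.le_max' j hjS
    omega
  · rw [hbig i j (by omega), hbig k j (by omega)]

lemma div_eq_iff_testBit (a b s : ℕ) :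
    a / 2 ^ (s + 1) = b / 2 ^ (s + 1) ↔ ∀ j, s < j → Nat.testBit a j = Nat.testBit b j := by
  constructor
  · intro h j hj
    have := congrArg (fun u => Nat.testBit u (j - (s + 1))) h
    simp only [Nat.testBit_div_two_pow] at this
    rwa [Nat.sub_add_cancel (by omega : s + 1 ≤ j)] at this
  · intro h
    refine Nat.eq_of_testBit_eq fun j => ?_
    simp only [Nat.testBit_div_two_pow]
    exact h _ (by omega)

lemma sum_apply_eq {α β : Type*} [Fintype α] [DecidableEq α] [Fintype β] [DecidableEq β]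
    {a b : α} (hab : a ≠ b) (F : β → β → ℝ) :
    (Fintype.card β : ℝ) ^ 2 * ∑ H : α → β, F (H a) (H b)
      = (Fintype.card (α → β) : ℝ) * ∑ u, ∑ v, F u v := by
  rw [← Equiv.sum_comp (Equiv.funSplitAt a β).symm (fun H => F (H a) (H b))]
  simp only [Fintype.sum_prod_type]
  set b' : {j // j ≠ a} := ⟨b, Ne.symm hab⟩ with hb'
  have hb : ∀ (u : β) (g : {j // j ≠ a} → β), (Equiv.funSplitAt a β).symm (u, g) b = g b' := by
    intro u g; simp [Equiv.funSplitAt, Equiv.piSplitAt, Ne.symm hab, hb']
  have ha : ∀ (u : β) (g : {j // j ≠ a} → β), (Equiv.funSplitAt a β).symm (u, g) a = u := by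
    intro u g; simp [Equiv.funSplitAt, Equiv.piSplitAt]
  simp only [ha, hb]
  have key : ∀ u, ∑ g : {j // j ≠ a} → β, F u (g b')
      = (Fintype.card ({j : {j // j ≠ a} // j ≠ b'} → β) : ℝ) * ∑ v, F u v := by
    intro u
    rw [← Equiv.sum_comp (Equiv.funSplitAt b' β).symm (fun g => F u (g b'))]
    simp [Fintype.sum_prod_type, Equiv.funSplitAt, Equiv.piSplitAt, mul_sum]
  simp only [key, ← mul_sum]
  have hc : Fintype.card (α → β) = Fintype.card β
      * (Fintype.card β * Fintype.card ({j : {j // j ≠ a} // j ≠ b'} → β)) := by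
    rw [Fintype.card_congr (Equiv.funSplitAt a β), Fintype.card_prod,
      Fintype.card_congr (Equiv.funSplitAt b' β), Fintype.card_prod]
  rw [hc]
  push_cast
  ring

lemma pos_lt (H : Key K → Fin m) (s : Fin K) (k : Fin (2 ^ K)) : pos H s k < m * K := by
  have h1 := s.2
  have h2 : (H (key s k) : ℕ) + 1 ≤ m := (H (key s k)).2
  unfold pos
  nlinarith

/-- The phase error of the pair `(i, k)`. -/
def noise (H : Key K → Fin m) (i k : Fin (2 ^ K)) : ℝ :=
  ∑ j : Fin K, ∑ l : Fin K,
    if (key j i ≠ key l k) ∧ ¬ Nat.testBit i j ∧ Nat.testBit k l then gw (pos H j i) (pos H l k)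
    else 0

lemma noise_nonneg (H : Key K → Fin m) (i k : Fin (2 ^ K)) : 0 ≤ noise H i k :=
  sum_nonneg fun j _ => sum_nonneg fun l _ => by split <;> first | exact gw_nonneg _ _ | rfl

/-- The average phase error is at most `K / m`. -/
lemma sum_noise_le (hm : 0 < m) (i k : Fin (2 ^ K)) :
    ∑ H : Key K → Fin m, noise H i k ≤ (Fintype.card (Key K → Fin m) : ℝ) * (K / m) := by
  set C : ℝ := (Fintype.card (Key K → Fin m) : ℝ) with hC
  unfold noise
  rw [sum_comm]
  have hj : ∀ j : Fin K, ∑ H : Key K → Fin m, ∑ l : Fin K,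
      (if (key j i ≠ key l k) ∧ ¬ Nat.testBit i j ∧ Nat.testBit k l
        then gw (pos H j i) (pos H l k) else 0) ≤ C / m := by
    intro j
    rw [sum_comm]
    have hl : ∀ l : Fin K, ∑ H : Key K → Fin m,
        (if (key j i ≠ key l k) ∧ ¬ Nat.testBit i j ∧ Nat.testBit k l
          then gw (pos H j i) (pos H l k) else 0)
        ≤ C / m ^ 2 * ∑ u : Fin m, ∑ v : Fin m,
            gw ((j : ℕ) + K * (u : ℕ)) ((l : ℕ) + K * (v : ℕ)) := by
      intro l
      split_ifs with h
      · have := sum_apply_eq h.1 (fun u v : Fin m =>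
          gw ((j : ℕ) + K * (u : ℕ)) ((l : ℕ) + K * (v : ℕ)))
        rw [Fintype.card_fin] at this
        refine le_of_eq ?_
        rw [div_mul_eq_mul_div, ← this, eq_div_iff (by positivity)]
        simp only [pos, mul_comm]
      · simp only [sum_const_zero]
        exact mul_nonneg (by positivity) (sum_nonneg fun u _ => sum_nonneg fun v _ => gw_nonneg _ _)
    refine (sum_le_sum fun l _ => hl l).trans ?_
    rw [← mul_sum, sum_comm]
    have hu : ∀ u : Fin m, ∑ l : Fin K, ∑ v : Fin m,
        gw ((j : ℕ) + K * (u : ℕ)) ((l : ℕ) + K * (v : ℕ)) ≤ 1 := by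
      intro u
      rw [sum_comm, ← Fintype.sum_prod_type', ← Equiv.sum_comp finProdFinEquiv.symm]
      refine le_trans (le_of_eq ?_) (sum_gw_le ((j : ℕ) + K * (u : ℕ)) (m * K))
      rw [← Fin.sum_univ_eq_sum_range]
      refine sum_congr rfl fun x _ => ?_
      simp only [finProdFinEquiv_symm_apply, Fin.coe_modNat, Fin.coe_divNat]
      rw [Nat.mod_add_div]
    refine (mul_le_mul_of_nonneg_left (sum_le_sum fun u _ => hu u) (by positivity)).trans ?_
    simp only [sum_const, card_univ, Fintype.card_fin, nsmul_eq_mul, mul_one]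
    rw [sq, div_mul_eq_mul_div, mul_div_mul_right _ _ (by positivity : (m : ℝ) ≠ 0)]
  refine (sum_le_sum fun j _ => hj j).trans (le_of_eq ?_)
  simp only [sum_const, card_univ, Fintype.card_fin, nsmul_eq_mul]
  ring

lemma ee_gw_split (p q : ℕ) :
    ee (-((2 : ℝ) ^ (base K + p) * (1 / 2) ^ (base K + 1 + q))) = ee (-(gw p q)) := by
  obtain ⟨z, hz⟩ := pow_mul_half_eq (K := K) p q
  rw [hz, show -(gw p q + z) = -(gw p q) + ((-(z : ℤ) : ℤ) : ℝ) by push_cast; ring, ee_add, ee_int,
    mul_one]

lemma ee_sum {ι : Type*} (s : Finset ι) (f : ι → ℝ) : ee (∑ x ∈ s, f x) = ∏ x ∈ s, ee (f x) := by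
  classical
  induction s using Finset.induction_on with
  | empty => simp [ee_zero]
  | insert a s ha ih => rw [sum_insert ha, prod_insert ha, ee_add, ih]

/-- The comparison sign. -/
def sgnk (i k : Fin (2 ^ K)) : ℝ := if i < k then -1 else 1

/-- The phase of the spike `k` at the frequency of `i` is the comparison sign up to the noise. -/
lemma phase_approx (H : Key K → Fin m) {i k : Fin (2 ^ K)} (h : i ≠ k) :
    ‖ee (-((freq H i : ℝ) * spike H k)) - (sgnk i k : ℂ)‖ ≤ 7 * noise H i k := by
  classical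
  obtain ⟨p, hp, htop⟩ := exists_top h
  -- the integral part disappears
  have hint : ee (-((freq H i : ℝ) * spike H k)) = ee (-((freq H i : ℝ) * dlt H k)) := by
    have hdvd : 2 ^ (K + 2) ∣ freq H i := dvd_sum fun s _ => by
      split
      · exact dvd_zero _
      · exact Nat.pow_dvd_pow _ (by unfold base; omega)
    obtain ⟨z, hz⟩ := hdvd
    have : (freq H i : ℝ) * spike H k = (freq H i : ℝ) * dlt H k + ((z * k : ℕ) : ℝ) := by
      rw [spike, hz]; push_cast; field_simp; ring
    rw [this, show -((freq H i : ℝ) * dlt H k + ((z * k : ℕ) : ℝ))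
      = -((freq H i : ℝ) * dlt H k) + ((-((z * k : ℕ) : ℤ) : ℤ) : ℝ) by push_cast; ring,
      ee_add, ee_int, mul_one]
  -- expansion as a double product
  have hexp : ee (-((freq H i : ℝ) * dlt H k)) = ee (-(∑ j : Fin K, ∑ l : Fin K,
      if ¬ Nat.testBit i j ∧ Nat.testBit k l then gw (pos H j i) (pos H l k) else 0)) := by
    unfold freq dlt
    push_cast
    simp only [sum_mul_sum, ← sum_neg_distrib, ee_sum]
    refine prod_congr rfl fun j _ => prod_congr rfl fun l _ => ?_
    by_cases hj : Nat.testBit i j <;> by_cases hl : Nat.testBit k l <;>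
      simp [hj, hl]
    simpa using ee_gw_split (K := K) (pos H j i) (pos H l k)
  set c : ℝ := if ¬ Nat.testBit i p ∧ Nat.testBit k p then 1 / 2 else 0 with hc
  have hsplit : (∑ j : Fin K, ∑ l : Fin K,
      if ¬ Nat.testBit i j ∧ Nat.testBit k l then gw (pos H j i) (pos H l k) else 0)
      = c + noise H i k := by
    have hkey : ∀ j l : Fin K, key j i = key l k ↔
        (j = l ∧ ∀ b : ℕ, (j : ℕ) < b → Nat.testBit i b = Nat.testBit k b) := by
      intro j l
      simp only [key, Prod.ext_iff, Fin.ext_iff]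
      constructor
      · rintro ⟨h1, h2⟩; rw [← h1] at h2; exact ⟨h1, (div_eq_iff_testBit _ _ _).1 h2⟩
      · rintro ⟨h1, h2⟩; exact ⟨h1, h1 ▸ (div_eq_iff_testBit _ _ _).2 h2⟩
    have hterm : ∀ j l : Fin K,
        (if ¬ Nat.testBit i j ∧ Nat.testBit k l then gw (pos H j i) (pos H l k) else 0)
        = (if j = p ∧ l = p then c else 0) +
          (if (key j i ≠ key l k) ∧ ¬ Nat.testBit i j ∧ Nat.testBit k l
            then gw (pos H j i) (pos H l k) else 0) := by
      intro j l
      by_cases he : key j i = key l k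
      · obtain ⟨hjl, hb⟩ := (hkey j l).1 he
        subst hjl
        have hpos : pos H j k = pos H j i := by simp only [pos, he]
        have hjp : ¬ (j : ℕ) < p := fun hlt => hp (hb p hlt)
        by_cases hjep : j = p
        · subst hjep
          simp [he, hc, hpos, gw_self]
        · have := htop j (lt_of_le_of_ne (not_lt.1 hjp) (fun e => hjep (Fin.ext e.symm)))
          simp [he, hjep, this]
      · have : ¬ (j = p ∧ l = p) := by
          rintro ⟨rfl, rfl⟩
          exact he ((hkey _ _).2 ⟨rfl, htop⟩)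
        simp [he, this]
    simp only [hterm, sum_add_distrib, noise]
    simp [ite_and, sum_ite_eq']
  have hsgn : ee (-c) = (sgnk i k : ℂ) := by
    have hlt : i < k ↔ (¬ Nat.testBit i p ∧ Nat.testBit k p) := by
      constructor
      · intro hik
        by_contra hcon
        have h1 : Nat.testBit i p = true ∧ Nat.testBit k p = false := by
          revert hp hcon
          cases Nat.testBit i p <;> cases Nat.testBit k p <;> simp
        exact absurd hik (not_lt.2 (le_of_lt
          (Nat.lt_of_testBit (p : ℕ) h1.2 h1.1 fun j hj => (htop j hj).symm)))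
      · rintro ⟨h1, h2⟩
        exact Nat.lt_of_testBit (p : ℕ) (by simpa using h1) h2 htop
    unfold sgnk
    by_cases hik : i < k
    · have := hlt.1 hik
      rw [hc, if_pos this, if_pos hik,
        show -(1 / 2 : ℝ) = 1 / 2 + ((-1 : ℤ) : ℝ) by norm_num, ee_add, ee_int, ee_half]
      simp
    · rw [hc, if_neg fun h' => hik (hlt.2 h'), if_neg hik]
      simp [ee_zero]
  rw [hint, hexp, hsplit, neg_add, ee_add, hsgn]
  rw [show (sgnk i k : ℂ) * ee (-noise H i k) - sgnk i k
    = (sgnk i k : ℂ) * (ee (-noise H i k) - 1) by ring, norm_mul, Complex.norm_real]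
  have h1 : ‖sgnk i k‖ = 1 := by unfold sgnk; split <;> simp
  rw [h1, one_mul]
  exact (norm_ee_sub_one_le _).trans (by rw [abs_neg, abs_of_nonneg (noise_nonneg H i k)])

end

end Vale.Agent.P091
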