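import Mathlib

/-!
Elementary facts about the Dirichlet kernel and the cotangent, in turns.
-/

namespace Vale.Agent.P091

open Complex Finset
open scoped Real ComplexConjugate

noncomputable section

/-- The character `t ↦ exp (2 π i t)`. -/
def ee (t : ℝ) : ℂ := exp (((2 * π * t : ℝ) : ℂ) * I)

lemma norm_ee (t : ℝ) : ‖ee t‖ = 1 := norm_exp_ofReal_mul_I _

lemma ee_zero : ee 0 = 1 := by simp [ee]

lemma ee_add (s t : ℝ) : ee (s + t) = ee s * ee t := by
  rw [ee, ee, ee, ← Complex.exp_add]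
  congr 1
  push_cast
  ring

lemma ee_re (t : ℝ) : (ee t).re = Real.cos (2 * π * t) := exp_ofReal_mul_I_re _

lemma ee_im (t : ℝ) : (ee t).im = Real.sin (2 * π * t) := exp_ofReal_mul_I_im _

lemma ee_int (z : ℤ) : ee z = 1 := by
  rw [ee, show (((2 * π * (z : ℝ) : ℝ)) : ℂ) * I = (z : ℂ) * (2 * π * I) by push_cast; ring]
  exact exp_int_mul_two_pi_mul_I z

lemma ee_nat (z : ℕ) : ee z = 1 := by
  have := ee_int z
  rwa [Int.cast_natCast] at this

lemma ee_add_nat (t : ℝ) (z : ℕ) : ee (t + z) = ee t := by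
  rw [ee_add, ee_nat, mul_one]

lemma ee_half : ee (1 / 2) = -1 := by
  rw [ee, show (((2 * π * (1 / 2 : ℝ) : ℝ)) : ℂ) * I = π * I by push_cast; ring]
  exact exp_pi_mul_I

lemma norm_ee_sub_one_le (t : ℝ) : ‖ee t - 1‖ ≤ 7 * |t| := by
  have h := Real.norm_exp_I_mul_ofReal_sub_one_le (x := 2 * π * t)
  rw [ee, mul_comm _ I]
  refine h.trans ?_
  rw [Real.norm_eq_abs, abs_mul, abs_of_pos (by positivity : (0 : ℝ) < 2 * π)]
  have := Real.pi_lt_d2
  nlinarith [abs_nonneg t]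

/-- The symmetric exponential sum times `sin (π d)`. -/
lemma sum_ee_mul_sin (N : ℕ) (d : ℝ) :
    (∑ p ∈ Icc (-(N : ℤ)) N, ee (p * d)) * (Real.sin (π * d) : ℂ)
      = (Real.sin (π * d) * Real.cos (2 * π * N * d)
          + Real.sin (2 * π * N * d) * Real.cos (π * d) : ℝ) := by
  induction N with
  | zero => simp [ee_zero]
  | succ N ih =>
    have hset : Icc (-((N + 1 : ℕ) : ℤ)) ((N + 1 : ℕ) : ℤ)
        = insert (-((N + 1 : ℕ) : ℤ)) (insert ((N + 1 : ℕ) : ℤ) (Icc (-(N : ℤ)) N)) := by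
      ext p; simp; omega
    rw [hset, sum_insert (by simp; omega), sum_insert (by simp), add_mul, add_mul, ih]
    set a : ℝ := π * d with ha
    set b : ℝ := 2 * π * N * d with hb
    have e1 : 2 * π * ((((N + 1 : ℕ) : ℤ) : ℝ) * d) = b + (a + a) := by push_cast; ring
    have e2 : 2 * π * (((-((N + 1 : ℕ) : ℤ) : ℤ) : ℝ) * d) = -(b + (a + a)) := by push_cast; ring
    have e3 : 2 * π * ((N + 1 : ℕ) : ℝ) * d = b + (a + a) := by push_cast; ring
    apply Complex.ext
    · simp only [add_re, mul_re, ee_re, ee_im, ofReal_re, ofReal_im, e1, e2, e3, Real.cos_neg,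
        Real.cos_add, Real.sin_add, mul_zero, sub_zero]
      linear_combination (Real.sin a * Real.cos b + Real.cos a * Real.sin b)
        * (-(1 : ℝ)) * Real.sin_sq_add_cos_sq a
    · simp only [add_im, mul_im, ee_re, ee_im, ofReal_re, ofReal_im, e1, e2, Real.sin_neg,
        mul_zero, zero_add]
      ring

lemma sum_ee_eq (N : ℕ) {d : ℝ} (h : Real.sin (π * d) ≠ 0) :
    (∑ p ∈ Icc (-(N : ℤ)) N, ee (p * d))
      = (Real.cos (2 * π * N * d) + Real.sin (2 * π * N * d) * Real.cot (π * d) : ℝ) := by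
  have h' : (Real.sin (π * d) : ℂ) ≠ 0 := ofReal_ne_zero.2 h
  apply mul_right_cancel₀ h'
  rw [sum_ee_mul_sin, ← ofReal_mul, Real.cot_eq_cos_div_sin]
  congr 1
  field_simp

lemma abs_sin_pi_mul_ge {d : ℝ} (h : |d| ≤ 1 / 2) : 2 * |d| ≤ |Real.sin (π * d)| := by
  have key : ∀ u : ℝ, 0 ≤ u → u ≤ 1 / 2 → 2 * u ≤ Real.sin (π * u) := by
    intro u h0 h1
    have := Real.mul_le_sin (x := π * u) (by positivity) (by nlinarith [Real.pi_pos])
    rwa [show 2 / π * (π * u) = 2 * u by field_simp] at this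
  rcases le_total 0 d with hd | hd
  · rw [abs_of_nonneg hd] at h ⊢
    exact (key d hd h).trans (le_abs_self _)
  · rw [abs_of_nonpos hd] at h ⊢
    refine (key (-d) (by linarith) h).trans ?_
    rw [mul_neg, Real.sin_neg]
    exact neg_le_abs _

lemma sin_pi_mul_ne {d : ℝ} (h0 : d ≠ 0) (h : |d| ≤ 1 / 2) : Real.sin (π * d) ≠ 0 := by
  intro hs
  have := abs_sin_pi_mul_ge h
  rw [hs, abs_zero] at this
  have := abs_pos.2 h0
  linarith

lemma abs_cot_le {d : ℝ} (h0 : d ≠ 0) (h : |d| ≤ 1 / 2) :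
    |Real.cot (π * d)| ≤ 1 / (2 * |d|) := by
  rw [Real.cot_eq_cos_div_sin, abs_div]
  have := abs_pos.2 h0
  exact div_le_div₀ zero_le_one (Real.abs_cos_le_one _) (by positivity) (abs_sin_pi_mul_ge h)

lemma cot_ge {d : ℝ} (h0 : 0 < d) (h : d ≤ 1 / 4) : 1 / (5 * d) ≤ Real.cot (π * d) := by
  have hs : 0 < Real.sin (π * d) :=
    Real.sin_pos_of_pos_of_lt_pi (by positivity) (by nlinarith [Real.pi_pos])
  have hs' : Real.sin (π * d) ≤ π * d := Real.sin_le (by positivity)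
  have hc : Real.cos (π / 4) ≤ Real.cos (π * d) :=
    Real.cos_le_cos_of_nonneg_of_le_pi (by positivity) (by linarith [Real.pi_pos])
      (by nlinarith [Real.pi_pos])
  rw [Real.cos_pi_div_four] at hc
  have h2 : (1.4 : ℝ) ≤ Real.sqrt 2 := Real.le_sqrt_of_sq_le (by norm_num)
  rw [Real.cot_eq_cos_div_sin, div_le_div_iff₀ (by positivity) hs]
  have := Real.pi_lt_d2
  nlinarith [mul_le_mul_of_nonneg_right (show (0.7 : ℝ) ≤ Real.cos (π * d) by linarith)
    (show (0 : ℝ) ≤ 5 * d by positivity)]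

/-- Two consecutive rotations of `B` cannot both have a small imaginary part. -/
lemma rotate_lower (B z : ℂ) (hz : ‖z‖ = 1) :
    ‖B‖ * |z.im| ≤ 2 * |B.im| + |(B * z).im| := by
  have h1 : B.re * z.im = (B * z).im - B.im * z.re := by simp [mul_im]
  have hzre : |z.re| ≤ 1 := hz ▸ abs_re_le_norm z
  have hzim : |z.im| ≤ 1 := hz ▸ abs_im_le_norm z
  calc ‖B‖ * |z.im| ≤ (|B.re| + |B.im|) * |z.im| :=
        mul_le_mul_of_nonneg_right (norm_le_abs_re_add_abs_im B) (abs_nonneg _)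
    _ = |B.re * z.im| + |B.im| * |z.im| := by rw [abs_mul, add_mul]
    _ ≤ (|(B * z).im| + |B.im| * |z.re|) + |B.im| * |z.im| := by
        rw [h1]
        have := abs_sub (B * z).im (B.im * z.re)
        rw [abs_mul] at this
        linarith
    _ ≤ 2 * |B.im| + |(B * z).im| := by
        nlinarith [abs_nonneg B.im]

end

end Vale.Agent.P091
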