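import Vale.Agent.P091.Tower

/-!
Superposition of translated blocks: a function in `φ(L)` with almost everywhere unbounded
symmetric partial sums whenever `φ(u) = o(u √(log u · log log log u))`.
-/

namespace Vale.Agent.P091

open Complex Finset MeasureTheory AddCircle Filter Topology Asymptotics
open scoped Real ComplexConjugate ENNReal

noncomputable section

variable [hT : Fact (0 < 2 * π)]

/-- A translate of a set can be chosen to catch a proportion of the mass of any function. -/
lemma exists_translate {E : Set (AddCircle (2 * π))} (hE : MeasurableSet E)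
    {h : AddCircle (2 * π) → ℝ≥0∞} (hh : Measurable h) {q : ℝ≥0∞}
    (hq : haarAddCircle Eᶜ ≤ q) :
    ∃ t, ∫⁻ z, ((fun w => w - t) ⁻¹' E)ᶜ.indicator h z ∂haarAddCircle
      ≤ q * ∫⁻ z, h z ∂haarAddCircle := by
  set F : AddCircle (2 * π) → AddCircle (2 * π) → ℝ≥0∞ :=
    fun t z => ((fun w => w - t) ⁻¹' E)ᶜ.indicator h z with hF
  have hF' : ∀ t z, F t z = h z * Eᶜ.indicator 1 (z - t) := by
    intro t z
    simp only [hF]
    by_cases hz : z - t ∈ E <;> simp [Set.indicator, hz]
  have hm : Measurable (Function.uncurry F) := by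
    have : Function.uncurry F
        = fun p : AddCircle (2 * π) × AddCircle (2 * π) => h p.2 * Eᶜ.indicator 1 (p.2 - p.1) := by
      funext p; exact hF' p.1 p.2
    rw [this]
    exact (hh.comp measurable_snd).mul
      ((measurable_const.indicator hE.compl).comp (measurable_snd.sub measurable_fst))
  obtain ⟨t, ht⟩ := exists_le_lintegral (μ := (haarAddCircle (T := 2 * π)))
    (f := fun t => ∫⁻ z, F t z ∂haarAddCircle) hm.lintegral_prod_right.aemeasurable
  refine ⟨t, ht.trans (le_of_eq_of_le (lintegral_lintegral_swap hm.aemeasurable) ?_)⟩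
  rw [← lintegral_const_mul _ hh]
  refine lintegral_mono fun z => ?_
  simp only [hF']
  have hmz : Measurable fun x : AddCircle (2 * π) =>
      Eᶜ.indicator (1 : AddCircle (2 * π) → ℝ≥0∞) (z - x) :=
    (measurable_const.indicator hE.compl).comp (measurable_const.sub measurable_id)
  rw [lintegral_const_mul (h z) hmz, mul_comm q]
  refine mul_le_mul_right (le_of_eq_of_le ?_ hq) _
  have hmp : MeasurePreserving (fun t => z - t) (haarAddCircle (T := 2 * π)) haarAddCircle := by
    simpa [sub_eq_add_neg, Function.comp_def] using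
      (measurePreserving_add_left _ z).comp (Measure.measurePreserving_neg haarAddCircle)
  rw [hmp.lintegral_comp (f := Eᶜ.indicator 1) (measurable_const.indicator hE.compl),
    lintegral_indicator_one hE.compl]

/-- Greedy translations covering almost every point infinitely often. -/
lemma exists_translates (E : ℕ → Set (AddCircle (2 * π))) (hE : ∀ r, MeasurableSet (E r))
    (hμ : ∀ r, ENNReal.ofReal (1 / 64) ≤ haarAddCircle (E r)) :
    ∃ t : ℕ → AddCircle (2 * π),
      ∀ᵐ z ∂haarAddCircle, ∀ a, ∃ r, a ≤ r ∧ z - t r ∈ E r := by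
  classical
  set q : ℝ≥0∞ := ENNReal.ofReal (63 / 64) with hq
  have hcompl : ∀ r, haarAddCircle (E r)ᶜ ≤ q := by
    intro r
    rw [prob_compl_eq_one_sub (hE r)]
    refine (tsub_le_tsub_left (hμ r) 1).trans (le_of_eq ?_)
    rw [hq, ← ENNReal.ofReal_one, ← ENNReal.ofReal_sub _ (by norm_num)]
    norm_num
  have step : ∀ r : ℕ, ∀ h : AddCircle (2 * π) → ℝ≥0∞, ∃ t, Measurable h →
      ∫⁻ z, ((fun w => w - t) ⁻¹' E r)ᶜ.indicator h z ∂haarAddCircle
        ≤ q * ∫⁻ z, h z ∂haarAddCircle := by
    intro r h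
    by_cases hh : Measurable h
    · obtain ⟨t, ht⟩ := exists_translate (hE r) hh (hcompl r)
      exact ⟨t, fun _ => ht⟩
    · exact ⟨0, fun hh' => absurd hh' hh⟩
  choose T hT' using step
  let hseq : ℕ → AddCircle (2 * π) → ℝ≥0∞ := fun r => Nat.rec (fun _ => 1)
    (fun r h z => ((fun w => w - T r h) ⁻¹' E r)ᶜ.indicator h z + (2⁻¹ : ℝ≥0∞) ^ (r + 1)) r
  have hsucc : ∀ r z, hseq (r + 1) z
      = ((fun w => w - T r (hseq r)) ⁻¹' E r)ᶜ.indicator (hseq r) z + (2⁻¹ : ℝ≥0∞) ^ (r + 1) :=
    fun r z => rfl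
  have hmeas : ∀ r, Measurable (hseq r) := by
    intro r
    induction r with
    | zero => exact measurable_const
    | succ r ih =>
      exact (ih.indicator ((measurable_id.sub_const _) (hE r)).compl).add measurable_const
  refine ⟨fun r => T r (hseq r), ?_⟩
  set W := fun r => ∫⁻ z, hseq r z ∂haarAddCircle with hW
  have hWle : ∀ r, W r ≤ (r + 1 : ℕ) * q ^ r := by
    intro r
    induction r with
    | zero => simp [hW, hseq]
    | succ r ih =>
      simp only [hW, hsucc]
      rw [lintegral_add_right _ measurable_const, lintegral_const, measure_univ, mul_one]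
      refine (add_le_add ((hT' r _ (hmeas r)).trans (mul_le_mul_right ih q))
        (show (2⁻¹ : ℝ≥0∞) ^ (r + 1) ≤ q ^ (r + 1) from ?_)).trans (le_of_eq ?_)
      · gcongr
        rw [hq, ← one_div, show (1 : ℝ≥0∞) / 2 = ENNReal.ofReal (1 / 2) by
          rw [ENNReal.ofReal_div_of_pos two_pos]; simp]
        exact ENNReal.ofReal_le_ofReal (by norm_num)
      · push_cast; ring
  have hWlim : Tendsto W atTop (𝓝 0) := by
    refine tendsto_of_tendsto_of_tendsto_of_le_of_le tendsto_const_nhds ?_ (fun r => bot_le) hWle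
    have h : Tendsto (fun r : ℕ => ENNReal.ofReal ((r + 1 : ℕ) * (63 / 64 : ℝ) ^ r)) atTop (𝓝 0) := by
      rw [← ENNReal.ofReal_zero]
      refine ENNReal.tendsto_ofReal ?_
      have h1 := tendsto_self_mul_const_pow_of_lt_one (r := (63 / 64 : ℝ)) (by norm_num) (by norm_num)
      have h2 := tendsto_pow_atTop_nhds_zero_of_lt_one (r := (63 / 64 : ℝ)) (by norm_num) (by norm_num)
      simpa [add_mul] using h1.add h2
    refine h.congr fun r => ?_
    rw [ENNReal.ofReal_mul (by positivity), ENNReal.ofReal_natCast, hq,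
      ENNReal.ofReal_pow (by norm_num)]
  rw [ae_all_iff]
  intro a
  rw [ae_iff]
  set Z := {z | ¬ ∃ r, a ≤ r ∧ z - T r (hseq r) ∈ E r} with hZ
  have hZge : ∀ r, a ≤ r → ∀ z ∈ Z, (2⁻¹ : ℝ≥0∞) ^ a ≤ hseq r z := by
    intro r har
    induction r, har using Nat.le_induction with
    | base =>
      intro z _
      rcases a with _ | b
      · simp [hseq]
      · rw [hsucc]; exact le_add_self
    | succ r har ih =>
      intro z hz
      rw [hsucc, Set.indicator_of_mem]
      · exact (ih z hz).trans le_self_add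
      · intro hmem
        exact hz ⟨r, har, hmem⟩
  have hmul : ∀ r, a ≤ r → (2⁻¹ : ℝ≥0∞) ^ a * haarAddCircle Z ≤ W r := by
    intro r har
    refine le_trans ?_ (mul_meas_ge_le_lintegral (hmeas r) ((2⁻¹ : ℝ≥0∞) ^ a))
    exact mul_le_mul_right (measure_mono fun z hz => hZge r har z hz) _
  have h0 : (2⁻¹ : ℝ≥0∞) ^ a * haarAddCircle Z ≤ 0 :=
    ge_of_tendsto hWlim (eventually_atTop.2 ⟨a, hmul⟩)
  simpa [pow_eq_zero_iff', mul_eq_zero] using h0

lemma fourierCoeff_translate (R : ℤ) (c : ℂ) (t : AddCircle (2 * π))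
    (g : AddCircle (2 * π) → ℂ) (q : ℤ) :
    fourierCoeff (fun z => c * (fourier R z * g (z - t))) q
      = c * (fourier (-(q - R)) t * fourierCoeff g (q - R)) := by
  rw [fourierCoeff.const_mul]
  congr 1
  simp only [fourierCoeff, smul_eq_mul]
  rw [← integral_sub_right_eq_self (μ := haarAddCircle)
    (fun z => fourier (-q) z * (fourier R z * g (z - t))) (-t), ← integral_const_mul]
  refine integral_congr_ae (Eventually.of_forall fun z => ?_)
  simp only [sub_neg_eq_add, add_sub_cancel_right]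
  rw [← mul_assoc, ← fourier_add, show -(q - R) = -q + R by ring]
  simp only [fourier_apply, smul_add, toCircle_add, Circle.coe_mul]
  ring

/-- Main theorem. -/
theorem exists_divergent (φ : ℝ → ℝ) (hmono : MonotoneOn φ (Set.Ici 0))
    (hnn : ∀ u, 0 ≤ u → 0 ≤ φ u)
    (ho : φ =o[atTop] fun u =>
      u * Real.sqrt (Real.log u * Real.log (Real.log (Real.log u)))) :
    ∃ f : AddCircle (2 * π) → ℂ, Integrable f (haarAddCircle (T := 2 * π)) ∧
      Integrable (fun x => φ ‖f x‖) (haarAddCircle (T := 2 * π)) ∧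
      ∀ᵐ x ∂(haarAddCircle (T := 2 * π)), ¬ BddAbove (Set.range fun N : ℕ =>
        ‖∑ k ∈ Icc (-(N : ℤ)) N, fourierCoeff f k * fourier k x‖) := by
  classical
  have hQ0 : ∀ r : ℕ, ∃ (U : ℝ) (Q : ℕ), 16 ≤ U ∧
      (∀ u, U ≤ u → φ u ≤ 1 / (22000000 * 4 ^ (r + 1) * (r + 1))
        * (u * Real.sqrt (Real.log u * Real.log (Real.log (Real.log u))))) ∧
      16384 ≤ Q ∧ 4 ^ (r + 1) * (r + 1) ≤ Q ∧
      16384 * φ U * (4 ^ (r + 1) * (r + 1)) ≤ Q := by
    intro r
    obtain ⟨U, hU⟩ := eventually_atTop.1 (ho.bound (show (0 : ℝ)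
      < 1 / (22000000 * 4 ^ (r + 1) * (r + 1)) by positivity))
    obtain ⟨Q, hQ⟩ := exists_nat_ge (16384 * φ (max U 16) * (4 ^ (r + 1) * (r + 1)))
    refine ⟨max U 16, Q + 16384 + 4 ^ (r + 1) * (r + 1), le_max_right _ _, fun u hu => ?_,
      by omega, Nat.le_add_left _ _, hQ.trans (by exact_mod_cast (by omega : Q ≤ _))⟩
    have := hU u ((le_max_left _ _).trans hu)
    rw [Real.norm_eq_abs, Real.norm_eq_abs] at this
    refine (le_abs_self _).trans (this.trans (le_of_eq ?_))
    rw [abs_of_nonneg (mul_nonneg (by linarith [le_max_right U 16]) (Real.sqrt_nonneg _))]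
  choose U Q hU16 hUφ hQ16 hQ4 hQφ using hQ0
  choose M g w E hgc hwc hw0 hg1 hgw hgpt hgband hEm hEμ hbig using
    fun r => exists_block (hQ16 r)
  obtain ⟨t, ht⟩ := exists_translates E hEm hEμ
  set a : ℕ → ℕ := fun r => 3 * M r + 1 with ha
  set R : ℕ → ℕ := fun r => (∑ s ∈ range r, 2 * a s) + a r with hR
  have hRmono : ∀ r s, r < s → R r + a r + a s ≤ R s := by
    intro r s hrs
    have := sum_le_sum_of_subset (f := fun s => 2 * a s)
      (range_mono (Nat.succ_le_of_lt hrs))
    rw [Finset.sum_range_succ] at this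
    simp only [hR]
    omega
  have hRsep : ∀ r s (q : ℤ), |q - R r| ≤ 3 * (M r : ℤ) → |q - R s| ≤ 3 * (M s : ℤ) → r = s := by
    intro r s q h1 h2
    rw [abs_le] at h1 h2
    rcases lt_trichotomy r s with h | h | h
    · have := hRmono r s h; simp only [ha] at this; omega
    · exact h
    · have := hRmono s r h; simp only [ha] at this; omega
  set c : ℕ → ℝ := fun r => r + 1 with hc
  have hQpos : ∀ r, (0 : ℝ) < Q r := fun r => by
    exact_mod_cast (show 0 < Q r by have := hQ16 r; omega)
  have hc0 : ∀ r, 0 ≤ c r := fun r => by positivity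
  have hc4 : ∀ r, c r / Q r ≤ (1 / 4) ^ r := by
    intro r
    rw [div_pow, one_pow, div_le_div_iff₀ (hQpos r) (by positivity), one_mul]
    have h1 : (4 : ℝ) ^ (r + 1) * ((r : ℝ) + 1) ≤ Q r := by exact_mod_cast hQ4 r
    have h2 : (0 : ℝ) ≤ ((r : ℝ) + 1) * 4 ^ r := by positivity
    rw [pow_succ] at h1
    simp only [hc]
    linarith
  set b : ℕ → AddCircle (2 * π) → ℂ :=
    fun r z => (c r : ℂ) * (fourier (R r : ℤ) z * g r (z - t r)) with hb
  have hbc : ∀ r, Continuous (b r) := fun r =>
    continuous_const.mul ((map_continuous (fourier (R r : ℤ))).mul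
      ((hgc r).comp (continuous_id.sub continuous_const)))
  have hbnorm : ∀ r z, ‖b r z‖ = c r * ‖g r (z - t r)‖ := by
    intro r z
    simp only [hb, norm_mul, norm_fourier_apply, one_mul, Complex.norm_real,
      Real.norm_of_nonneg (hc0 r)]
  have hb1 : ∀ r, ∫⁻ z, ‖b r z‖ₑ ∂haarAddCircle ≤ ENNReal.ofReal (16384 * (c r / Q r)) := by
    intro r
    rw [← ofReal_integral_norm_eq_lintegral_enorm (integrable_cont (hbc r))]
    refine ENNReal.ofReal_le_ofReal ?_
    simp only [hbnorm]
    rw [integral_const_mul, integral_sub_right_eq_self (fun z => ‖g r z‖) (t r)]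
    exact (mul_le_mul_of_nonneg_left (hg1 r) (hc0 r)).trans (le_of_eq (by ring))
  have hsum : ∑' r, ∫⁻ z, ‖b r z‖ₑ ∂haarAddCircle ≠ ∞ := by
    refine ne_top_of_le_ne_top ?_ (ENNReal.tsum_le_tsum fun r => (hb1 r).trans
      (ENNReal.ofReal_le_ofReal (mul_le_mul_of_nonneg_left (hc4 r) (by norm_num : (0 : ℝ) ≤ 16384))))
    exact ((summable_geometric_of_lt_one (by norm_num : (0 : ℝ) ≤ 1 / 4)
      (by norm_num)).mul_left 16384).tsum_ofReal_ne_top
  set f : AddCircle (2 * π) → ℂ := fun z => ∑' r, b r z with hf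
  have hbm : ∀ r, AEStronglyMeasurable (b r) haarAddCircle := fun r =>
    (hbc r).aestronglyMeasurable
  have hlt : ∀ᵐ z ∂haarAddCircle, ∑' r, ‖b r z‖ₑ < ∞ :=
    ae_lt_top (Measurable.ennreal_tsum fun r => (hbc r).enorm.measurable)
      (by rwa [lintegral_tsum fun r => (hbc r).enorm.measurable.aemeasurable])
  have hsummable : ∀ᵐ z ∂haarAddCircle, Summable fun r => ‖b r z‖ := by
    filter_upwards [hlt] with z hz
    exact summable_norm_iff.2 (Summable.of_enorm hz.ne)
  have hfm : AEStronglyMeasurable f haarAddCircle := by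
    refine aestronglyMeasurable_of_tendsto_ae atTop (f := fun n z => ∑ r ∈ range n, b r z)
      (fun n => (continuous_finsetSum _ fun r _ => hbc r).aestronglyMeasurable) ?_
    filter_upwards [hsummable] with z hz
    exact hz.of_norm.hasSum.tendsto_sum_nat
  have hfint : Integrable f haarAddCircle := by
    refine ⟨hfm, ?_⟩
    show ∫⁻ z, ‖f z‖ₑ ∂haarAddCircle < ∞
    refine lt_of_le_of_lt (lintegral_mono fun z => enorm_tsum_le_tsum_enorm) ?_
    rw [lintegral_tsum fun r => (hbc r).enorm.measurable.aemeasurable]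
    exact lt_top_iff_ne_top.2 hsum
  have hcoef : ∀ q : ℤ, fourierCoeff f q = ∑' r, fourierCoeff (b r) q := by
    intro q
    simp only [fourierCoeff, hf, smul_eq_mul]
    rw [← integral_tsum (f := fun r t => fourier (-q) t * b r t)
      (fun r => ((map_continuous (fourier (-q))).mul (hbc r)).aestronglyMeasurable)]
    · simp only [tsum_mul_left]
    · simpa only [← ofReal_norm_eq_enorm, norm_mul, norm_fourier_apply, one_mul] using hsum
  have hbcoef : ∀ r (q : ℤ), fourierCoeff (b r) q
      = (c r : ℂ) * (fourier (-(q - R r)) (t r) * fourierCoeff (g r) (q - R r)) := fun r q =>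
    fourierCoeff_translate _ _ _ _ _
  have hbzero : ∀ r (q : ℤ), 3 * (M r : ℤ) < |q - R r| → fourierCoeff (b r) q = 0 := by
    intro r q hq
    rw [hbcoef, hgband r _ hq]; simp
  -- membership in `φ(L)`
  set φ' : ℝ → ℝ := fun u => φ (max u 0) with hφ'
  have hφ'm : Measurable φ' := Monotone.measurable fun u v huv =>
    hmono (le_max_right u 0) (le_max_right v 0) (max_le_max huv le_rfl)
  have hφeq : (fun x => φ ‖f x‖) = fun x => φ' ‖f x‖ := by
    funext x; simp [hφ']
  set ψ : ℕ → AddCircle (2 * π) → ℝ≥0∞ :=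
    fun r z => ENNReal.ofReal (φ' (2 ^ (r + 1) * ‖b r z‖) - φ 1) with hψ
  have hpt : ∀ z, ENNReal.ofReal (φ ‖f z‖) ≤ ENNReal.ofReal (φ 1) + ∑' r, ψ r z := by
    intro z
    by_cases hsz : Summable fun r => ‖b r z‖
    · by_cases hz0 : ‖f z‖ ≤ 1
      · exact (ENNReal.ofReal_le_ofReal (hmono (norm_nonneg (f z))
          (Set.mem_Ici.2 zero_le_one) hz0)).trans le_self_add
      · have hex : ∃ r, ‖f z‖ ≤ 2 ^ (r + 1) * ‖b r z‖ := by
          by_contra hcon
          push Not at hcon
          have hgeo : HasSum (fun r : ℕ => ‖f z‖ * (1 / 2) ^ (r + 1)) ‖f z‖ := by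
            have := ((hasSum_geometric_two).mul_left (‖f z‖ * (1 / 2)))
            simpa [pow_succ, mul_assoc, mul_comm, mul_left_comm] using this
          have hle : ∀ r, ‖b r z‖ < ‖f z‖ * (1 / 2) ^ (r + 1) := by
            intro r
            rw [div_pow, one_pow, ← mul_div_assoc, mul_one, lt_div_iff₀ (by positivity), mul_comm]
            exact hcon r
          have := Summable.tsum_lt_tsum (i := 0) (fun r => (hle r).le) (hle 0) hsz hgeo.summable
          rw [hgeo.tsum_eq] at this
          exact absurd (norm_tsum_le_tsum_norm hsz) (not_le.2 this)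
        obtain ⟨r, hr⟩ := hex
        have h1 : φ ‖f z‖ ≤ φ' (2 ^ (r + 1) * ‖b r z‖) := by
          simp only [hφ']
          exact hmono (norm_nonneg (f z)) (Set.mem_Ici.2 (le_max_right _ _))
            (hr.trans (le_max_left _ _))
        refine (ENNReal.ofReal_le_ofReal (h1.trans (le_of_eq (add_sub_cancel (φ 1) _).symm))).trans ?_
        exact ENNReal.ofReal_add_le.trans (add_le_add le_rfl (ENNReal.le_tsum (f := fun r => ψ r z) r))
    · have : f z = 0 := tsum_eq_zero_of_not_summable fun h => hsz h.norm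
      rw [this, norm_zero]
      exact (ENNReal.ofReal_le_ofReal (hmono (Set.mem_Ici.2 le_rfl) (Set.mem_Ici.2 zero_le_one)
        zero_le_one)).trans le_self_add
  have hψle : ∀ r, ∫⁻ z, ψ r z ∂haarAddCircle ≤ ENNReal.ofReal (2 * (1 / 2) ^ r) := by
    intro r
    set ε : ℝ := 1 / (22000000 * 4 ^ (r + 1) * (r + 1)) with hε
    set s : ℝ := 2 ^ (r + 1) * c r with hs
    have hε0 : 0 < ε := by positivity
    have hs0 : 0 ≤ s := by positivity
    have hsQ : s ≤ Q r := by
      have h1 : (4 : ℝ) ^ (r + 1) * ((r : ℝ) + 1) ≤ Q r := by exact_mod_cast hQ4 r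
      refine le_trans (mul_le_mul_of_nonneg_right ?_ (hc0 r)) h1
      exact pow_le_pow_left₀ (by norm_num) (by norm_num) _
    have hU0 := hnn (U r) (by linarith [hU16 r])
    have hpoint : ∀ z, φ' (2 ^ (r + 1) * ‖b r z‖) - φ 1
        ≤ φ (U r) * (s * ‖g r (z - t r)‖) + ε * s * (‖g r (z - t r)‖ * w r (z - t r)) := by
      intro z
      rw [show 2 ^ (r + 1) * ‖b r z‖ = s * ‖g r (z - t r)‖ by rw [hbnorm, hs]; ring]
      have hw' := hw0 r (z - t r)
      have hgp := hgpt r (z - t r) s hs0 hsQ
      set u := s * ‖g r (z - t r)‖ with hu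
      have hu0 : 0 ≤ u := by positivity
      have hlast : 0 ≤ ε * s * (‖g r (z - t r)‖ * w r (z - t r)) := by positivity
      have hfirst : 0 ≤ φ (U r) * u := mul_nonneg hU0 hu0
      have hφ1 := hnn 1 zero_le_one
      simp only [hφ', max_eq_left hu0]
      by_cases h1 : u ≤ 1
      · have := hmono (Set.mem_Ici.2 hu0) (Set.mem_Ici.2 zero_le_one) h1
        linarith
      push Not at h1
      by_cases h2 : u ≤ U r
      · have h3 := hmono (Set.mem_Ici.2 hu0) (Set.mem_Ici.2 (by linarith [hU16 r])) h2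
        have := mul_le_mul_of_nonneg_left h1.le hU0
        linarith
      · push Not at h2
        have h3 := hUφ r u h2.le
        rw [← hε] at h3
        have h4 := mul_le_mul_of_nonneg_left (mul_le_mul_of_nonneg_left
          (hgp (by linarith [hU16 r])) hu0) hε0.le
        have h5 : ε * (u * w r (z - t r)) = ε * s * (‖g r (z - t r)‖ * w r (z - t r)) := by
          rw [hu]; ring
        linarith
    have hcg : Continuous fun z => g r (z - t r) := (hgc r).comp (continuous_id.sub continuous_const)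
    have hcw : Continuous fun z => w r (z - t r) := (hwc r).comp (continuous_id.sub continuous_const)
    have hI : ∀ F : AddCircle (2 * π) → ℝ, Continuous F →
        Integrable F (haarAddCircle (T := 2 * π)) := fun F hF =>
      hF.integrable_of_hasCompactSupport (HasCompactSupport.of_compactSpace F)
    have hi1 := hI (fun z => φ (U r) * (s * ‖g r (z - t r)‖)) (by fun_prop)
    have hi2 := hI (fun z => ε * s * (‖g r (z - t r)‖ * w r (z - t r))) (by fun_prop)
    refine (lintegral_mono fun z => ENNReal.ofReal_le_ofReal (hpoint z)).trans ?_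
    refine le_of_eq_of_le (ofReal_integral_eq_lintegral_ofReal (hi1.add hi2)
      (Eventually.of_forall fun z => add_nonneg (mul_nonneg hU0 (by positivity))
        (mul_nonneg (by positivity) (mul_nonneg (norm_nonneg _) (hw0 r _))))).symm ?_
    refine ENNReal.ofReal_le_ofReal ?_
    rw [integral_add' hi1 hi2, integral_const_mul, integral_const_mul, integral_const_mul,
      integral_sub_right_eq_self (fun z => ‖g r z‖) (t r),
      integral_sub_right_eq_self (fun z => ‖g r z‖ * w r z) (t r)]
    have e1 : φ (U r) * (s * (16384 / Q r)) ≤ (1 / 2) ^ r := by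
      have hQ := hQpos r
      have h1 := hQφ r
      have e : (4 : ℝ) ^ (r + 1) = 2 ^ (r + 1) * 2 ^ (r + 1) := by rw [← mul_pow]; norm_num
      rw [e] at h1
      rw [hs, div_pow, one_pow, show φ (U r) * (2 ^ (r + 1) * c r * (16384 / Q r))
        = φ (U r) * 2 ^ (r + 1) * c r * 16384 / Q r by ring, div_le_div_iff₀ hQ (by positivity),
        one_mul]
      simp only [hc]
      have : 0 ≤ φ (U r) * 2 ^ (r + 1) * ((r : ℝ) + 1) * 16384 * 2 ^ r := by positivity
      rw [pow_succ] at h1 this ⊢
      linarith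
    have e2 : ε * s * 22000000 = (1 / 2) ^ (r + 1) := by
      simp only [hε, hs, hc]
      rw [show (4 : ℝ) ^ (r + 1) = 2 ^ (r + 1) * 2 ^ (r + 1) by rw [← mul_pow]; norm_num,
        div_pow, one_pow]
      field_simp
    have e3 : ((1 : ℝ) / 2) ^ (r + 1) ≤ (1 / 2) ^ r :=
      pow_le_pow_of_le_one (by norm_num) (by norm_num) (Nat.le_succ r)
    have h2 := mul_le_mul_of_nonneg_left (mul_le_mul_of_nonneg_left (hg1 r) hs0) hU0
    have h3 := mul_le_mul_of_nonneg_left (hgw r) (show 0 ≤ ε * s by positivity)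
    linarith
  have hφint : Integrable (fun x => φ ‖f x‖) haarAddCircle := by
    refine ⟨hφeq ▸ (hφ'm.comp_aemeasurable hfm.norm.aemeasurable).aestronglyMeasurable, ?_⟩
    show ∫⁻ z, ‖φ ‖f z‖‖ₑ ∂haarAddCircle < ∞
    simp only [Real.enorm_of_nonneg (hnn _ (norm_nonneg _))]
    refine lt_of_le_of_lt (lintegral_mono hpt) ?_
    rw [lintegral_add_left measurable_const, lintegral_const, measure_univ, mul_one,
      lintegral_tsum (f := fun r z => ψ r z) fun r => ((hφ'm.comp
        ((hbc r).norm.measurable.const_mul _)).sub_const _).ennreal_ofReal.aemeasurable]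
    refine ENNReal.add_lt_top.2 ⟨ENNReal.ofReal_lt_top, ?_⟩
    refine lt_of_le_of_lt (ENNReal.tsum_le_tsum hψle) (lt_top_iff_ne_top.2 ?_)
    exact ((summable_geometric_two).mul_left 2).tsum_ofReal_ne_top
  refine ⟨f, hfint, hφint, ?_⟩
  filter_upwards [ht] with z hz ⟨C, hC⟩
  obtain ⟨n, hn⟩ := exists_nat_gt (2 * C)
  obtain ⟨r, hnr, hzr⟩ := hz n
  obtain ⟨N, hNM, hN⟩ := hbig r _ hzr
  set p : ℤ := (R r : ℤ) with hp
  have hRN : N + 1 ≤ R r := by simp only [hR, ha]; omega
  set S : ℕ → ℂ := fun m => ∑ k ∈ Icc (-(m : ℤ)) m, fourierCoeff f k * fourier k z with hS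
  have hdiff : S (R r + N) - S (R r - N - 1)
      = ∑ q ∈ Icc (p - (N : ℤ)) (p + N), fourierCoeff f q * fourier q z := by
    have hsplit : Icc (-((R r + N : ℕ) : ℤ)) ((R r + N : ℕ) : ℤ)
        \ Icc (-((R r - N - 1 : ℕ) : ℤ)) ((R r - N - 1 : ℕ) : ℤ)
        = Icc (p - (N : ℤ)) (p + N) ∪ Icc (-p - (N : ℤ)) (-p + N) := by
      ext q; simp only [hp, Finset.mem_sdiff, Finset.mem_union, Finset.mem_Icc]; omega
    have hsub : Icc (-((R r - N - 1 : ℕ) : ℤ)) ((R r - N - 1 : ℕ) : ℤ)
        ⊆ Icc (-((R r + N : ℕ) : ℤ)) ((R r + N : ℕ) : ℤ) := by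
      intro q; simp only [Finset.mem_Icc]; omega
    simp only [hS]
    rw [← sum_sdiff hsub, add_sub_cancel_right, hsplit, sum_union]
    · rw [add_eq_left]
      refine sum_eq_zero fun q hq => ?_
      rw [hcoef, tsum_congr fun s => hbzero s q ?_, tsum_zero, zero_mul]
      simp only [hp, Finset.mem_Icc] at hq
      have : 3 * M s + 1 ≤ R s := by simp only [hR, ha]; omega
      rw [abs_sub_comm, abs_of_nonneg (by omega)]
      omega
    · rw [Finset.disjoint_left]
      intro q; simp only [hp, Finset.mem_Icc]; omega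
  have hblock : ∑ q ∈ Icc (p - (N : ℤ)) (p + N), fourierCoeff f q * fourier q z
      = (c r : ℂ) * fourier p z
        * ∑ q ∈ Icc (-(N : ℤ)) N, fourierCoeff (g r) q * fourier q (z - t r) := by
    have hIcc : Icc (p - (N : ℤ)) (p + N)
        = (Icc (-(N : ℤ)) N).map (addRightEmbedding p) := by
      rw [map_add_right_Icc]; congr 1 <;> ring
    rw [hIcc, sum_map, mul_sum]
    refine sum_congr rfl fun q hq => ?_
    simp only [Finset.mem_Icc] at hq
    rw [addRightEmbedding_apply, hcoef, tsum_eq_single r]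
    · rw [hbcoef, ← hp, add_sub_cancel_right, fourier_add]
      have : fourier q (z - t r) = fourier q z * fourier (-q) (t r) := by
        simp only [fourier_apply, sub_eq_add_neg, smul_add, smul_neg, toCircle_add, Circle.coe_mul, neg_smul]
      rw [this]; ring
    · intro s hs
      apply hbzero
      by_contra hle
      push Not at hle
      exact hs (hRsep s r (q + p) hle (by
        simp only [hp, add_sub_cancel_right]; exact abs_le.2 ⟨by omega, by omega⟩))
  have h1 : (r : ℝ) + 1 ≤ ‖S (R r + N) - S (R r - N - 1)‖ := by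
    rw [hdiff, hblock, norm_mul, norm_mul, norm_fourier_apply, mul_one, Complex.norm_real,
      Real.norm_of_nonneg (hc0 r)]
    refine le_trans (le_of_eq ?_) (mul_le_mul_of_nonneg_left hN (hc0 r))
    simp [hc]
  have h2 := norm_sub_le (S (R r + N)) (S (R r - N - 1))
  have h3 := hC (Set.mem_range_self (R r + N))
  have h4 := hC (Set.mem_range_self (R r - N - 1))
  simp only [hS] at h1 h2
  have : (n : ℝ) ≤ r := by exact_mod_cast hnr
  linarith

end

end Vale.Agent.P091
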