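import Vale.Agent.P091.Hash

/-!
Harmonic weights of cells and the choice of a hash with small noise.
-/

namespace Vale.Agent.P091

open Complex Finset
open scoped Real

noncomputable section

variable {K m : ℕ}

/-- The symmetric partial sum at order `N` of the mean of the point masses at `x k`. -/
def pSum {n : ℕ} (N : ℕ) (x : Fin n → ℝ) (y : ℝ) : ℂ :=
  ∑ p ∈ Icc (-(N : ℤ)) N, (n : ℂ)⁻¹ * (∑ k, ee (-(p * x k))) * ee (p * y)

/-- The harmonic weight of a cell. -/
def hsum (i : Fin (2 ^ K)) : ℝ := ∑ k ∈ univ.erase i, 1 / |((i : ℕ) : ℝ) - (k : ℕ)|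

lemma harmonic_Icc (L : ℕ) : (harmonic L : ℝ) = ∑ d ∈ Icc 1 L, 1 / (d : ℝ) := by
  rw [harmonic_eq_sum_Icc]
  push_cast
  simp [one_div]

lemma hsum_lower (hK : 1 ≤ K) (i : Fin (2 ^ K)) : 0.69 * ((K : ℝ) - 1) ≤ hsum i := by
  have h2 : 2 ^ K = 2 * 2 ^ (K - 1) := by rw [← pow_succ']; congr 1; omega
  set L := 2 ^ (K - 1) with hL
  have hlog : 0.69 * ((K : ℝ) - 1) ≤ ∑ d ∈ Icc 1 L, 1 / (d : ℝ) := by
    have h := log_add_one_le_harmonic L
    rw [harmonic_Icc] at h
    refine le_trans ?_ h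
    have h1 : Real.log ((2 : ℝ) ^ (K - 1)) ≤ Real.log ((L + 1 : ℕ) : ℝ) := by
      refine Real.log_le_log (by positivity) ?_
      rw [hL]; push_cast; linarith
    rw [Real.log_pow, Nat.cast_sub hK, Nat.cast_one] at h1
    have : (1 : ℝ) ≤ K := by exact_mod_cast hK
    have := Real.log_two_gt_d9
    nlinarith [show (0 : ℝ) ≤ (K : ℝ) - 1 by linarith]
  refine hlog.trans ?_
  have hi := i.2
  by_cases hside : (i : ℕ) < L
  · set g : ℕ → Fin (2 ^ K) := fun d => if h : (i : ℕ) + d < 2 ^ K then ⟨i + d, h⟩ else i with hg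
    have hval : ∀ d ∈ Icc 1 L, ((g d : ℕ)) = i + d := by
      intro d hd; simp at hd; simp [hg, show (i : ℕ) + d < 2 ^ K by omega]
    have hinj : Set.InjOn g (Icc 1 L : Finset ℕ) := by
      intro a ha b hb hab
      have := congrArg Fin.val hab
      rw [hval a ha, hval b hb] at this
      omega
    refine le_trans ?_ (sum_le_sum_of_subset_of_nonneg (s := (Icc 1 L).image g) ?_
      fun _ _ _ => by positivity)
    · rw [sum_image hinj]
      refine le_of_eq (sum_congr rfl fun d hd => ?_)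
      rw [hval d hd]; simp
    · intro k hk
      obtain ⟨d, hd, rfl⟩ := mem_image.1 hk
      refine mem_erase.2 ⟨fun e => ?_, mem_univ _⟩
      have h3 := hval d hd
      rw [e] at h3
      simp at hd; omega
  · set g : ℕ → Fin (2 ^ K) := fun d => ⟨i - d, by omega⟩ with hg
    have hinj : Set.InjOn g (Icc 1 L : Finset ℕ) := by
      intro a ha b hb hab
      have := congrArg Fin.val hab
      simp [hg] at this ha hb
      omega
    refine le_trans ?_ (sum_le_sum_of_subset_of_nonneg (s := (Icc 1 L).image g) ?_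
      fun _ _ _ => by positivity)
    · rw [sum_image hinj]
      refine le_of_eq (sum_congr rfl fun d hd => ?_)
      simp at hd
      simp [hg, Nat.cast_sub (show d ≤ (i : ℕ) by omega)]
    · intro k hk
      obtain ⟨d, hd, rfl⟩ := mem_image.1 hk
      refine mem_erase.2 ⟨fun e => ?_, mem_univ _⟩
      have h3 := congrArg Fin.val e
      simp [hg] at h3 hd
      omega

lemma hsum_upper (hK : 1 ≤ K) (i : Fin (2 ^ K)) : hsum i ≤ 4 * K := by
  have hb : ∑ d ∈ Icc (1 : ℕ) (2 ^ K), 1 / (d : ℝ) ≤ 1 + K * Real.log 2 := by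
    have h := harmonic_le_one_add_log (2 ^ K)
    rw [harmonic_Icc] at h
    push_cast at h
    rwa [Real.log_pow] at h
  have hside : ∀ f : Fin (2 ^ K) → ℕ, ∀ S : Finset (Fin (2 ^ K)), Set.InjOn f S →
      (∀ k ∈ S, 1 ≤ f k ∧ f k ≤ 2 ^ K) → ∑ k ∈ S, 1 / (f k : ℝ) ≤ 1 + K * Real.log 2 := by
    intro f S hf hr
    refine le_trans ?_ hb
    rw [← sum_image (f := fun d : ℕ => 1 / (d : ℝ)) hf]
    refine sum_le_sum_of_subset_of_nonneg ?_ fun _ _ _ => by positivity
    intro d hd
    obtain ⟨k, hk, rfl⟩ := mem_image.1 hd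
    exact mem_Icc.2 (hr k hk)
  have hi := i.2
  have h1 := hside (fun k => (k : ℕ) - i) (univ.filter fun k => (i : ℕ) < k)
    (fun a ha b hb hab => by simp [-Fin.val_fin_lt] at ha hb hab; exact Fin.ext (by omega))
    (fun k hk => by simp [-Fin.val_fin_lt] at hk; have := k.2; omega)
  have h2 := hside (fun k => (i : ℕ) - k) (univ.filter fun k : Fin (2 ^ K) => (k : ℕ) < i)
    (fun a ha b hb hab => by simp [-Fin.val_fin_lt] at ha hb hab; exact Fin.ext (by omega))
    (fun k hk => by simp [-Fin.val_fin_lt] at hk; omega)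
  have hsp : (univ.erase i : Finset (Fin (2 ^ K)))
      = (univ.filter fun k : Fin (2 ^ K) => (i : ℕ) < k) ∪ (univ.filter fun k : Fin (2 ^ K) => (k : ℕ) < i) := by
    ext k; simp [Fin.ext_iff, -Fin.val_fin_lt]; omega
  have hdisj : Disjoint (univ.filter fun k : Fin (2 ^ K) => (i : ℕ) < k)
      (univ.filter fun k : Fin (2 ^ K) => (k : ℕ) < i) := by
    rw [disjoint_filter]; intro k _ h h'; omega
  unfold hsum
  rw [hsp, sum_union hdisj]
  have e1 : ∀ k ∈ (univ.filter fun k : Fin (2 ^ K) => (i : ℕ) < k),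
      1 / |((i : ℕ) : ℝ) - (k : ℕ)| = 1 / (((k : ℕ) - (i : ℕ) : ℕ) : ℝ) := by
    intro k hk; simp [-Fin.val_fin_lt] at hk
    rw [Nat.cast_sub hk.le, abs_sub_comm, abs_of_nonneg (by simp [hk.le])]
  have e2 : ∀ k ∈ (univ.filter fun k : Fin (2 ^ K) => (k : ℕ) < i),
      1 / |((i : ℕ) : ℝ) - (k : ℕ)| = 1 / (((i : ℕ) - (k : ℕ) : ℕ) : ℝ) := by
    intro k hk; simp [-Fin.val_fin_lt] at hk
    rw [Nat.cast_sub hk.le, abs_of_nonneg (by simp [hk.le])]
  rw [sum_congr rfl e1, sum_congr rfl e2]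
  have : (1 : ℝ) ≤ K := by exact_mod_cast hK
  have := Real.log_two_lt_d9
  nlinarith

/-- The weighted noise of a cell. -/
def cellNoise (H : Key K → Fin m) (i : Fin (2 ^ K)) : ℝ :=
  ∑ k ∈ univ.erase i, 56 / |((i : ℕ) : ℝ) - (k : ℕ)| * noise H i k

lemma exists_hash (hK : 1 ≤ K) :
    ∃ H : Key K → Fin (8000 * K),
      2 ^ K ≤ 2 * ((univ : Finset (Fin (2 ^ K))).filter fun i => cellNoise H i ≤ (K : ℝ) / 16).card := by
  set m := 8000 * K with hm
  have hm0 : 0 < m := by omega
  have : Nonempty (Fin m) := ⟨⟨0, hm0⟩⟩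
  set C : ℝ := (Fintype.card (Key K → Fin m) : ℝ)
  have hC : 0 < C := by positivity
  have htot : ∑ H : Key K → Fin m, ∑ i, cellNoise H i
      ≤ ∑ _H : Key K → Fin m, (2 : ℝ) ^ K * (0.028 * K) := by
    rw [sum_comm]
    have hi : ∀ i : Fin (2 ^ K), ∑ H : Key K → Fin m, cellNoise H i ≤ C * (0.028 * K) := by
      intro i
      unfold cellNoise
      rw [sum_comm]
      simp only [← mul_sum]
      refine (sum_le_sum fun k _ => mul_le_mul_of_nonneg_left (sum_noise_le hm0 i k)
        (by positivity)).trans ?_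
      have : (∑ k ∈ univ.erase i, 56 / |((i : ℕ) : ℝ) - (k : ℕ)| * (C * (K / m)))
          = hsum i * (56 * C * (K / m)) := by
        rw [hsum, sum_mul]; refine sum_congr rfl fun k _ => by ring
      rw [this]
      have hKm : (K : ℝ) / m = 1 / 8000 := by
        have : (K : ℝ) ≠ 0 := by exact_mod_cast (show K ≠ 0 by omega)
        rw [hm]; push_cast; field_simp
      rw [hKm]
      nlinarith [hsum_upper hK i]
    refine (sum_le_sum fun i _ => hi i).trans (le_of_eq ?_)
    simp only [sum_const, card_univ, Fintype.card_fin, nsmul_eq_mul, C]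
    push_cast
    ring
  obtain ⟨H, -, hH⟩ := exists_le_of_sum_le univ_nonempty htot
  refine ⟨H, ?_⟩
  set G := ((univ : Finset (Fin (2 ^ K))).filter fun i => cellNoise H i ≤ (K : ℝ) / 16) with hG
  by_contra hcon
  push Not at hcon
  have hbad : (K : ℝ) / 16 * (Gᶜ.card : ℝ) ≤ ∑ i, cellNoise H i := by
    refine le_trans ?_ (sum_le_sum_of_subset_of_nonneg (subset_univ Gᶜ) fun i _ _ =>
      sum_nonneg fun k _ => mul_nonneg (by positivity) (noise_nonneg H i k))
    rw [mul_comm, ← nsmul_eq_mul, ← sum_const]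
    refine sum_le_sum fun i hi => le_of_lt ?_
    simpa [hG] using hi
  have hcard : (2 : ℝ) ^ K ≤ 2 * (Gᶜ.card : ℝ) := by
    have h1 := card_add_card_compl G
    rw [Fintype.card_fin] at h1
    have : 2 ^ K ≤ 2 * Gᶜ.card := by omega
    exact_mod_cast this
  have : (0 : ℝ) < K := by exact_mod_cast hK
  have hpow : (0 : ℝ) < (2 : ℝ) ^ K := by positivity
  nlinarith [mul_le_mul_of_nonneg_left hcard (show (0 : ℝ) ≤ (K : ℝ) / 32 by positivity)]

lemma pos_inj (H : Key K → Fin m) (k : Fin (2 ^ K)) :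
    Function.Injective fun s : Fin K => pos H s k := by
  intro a b h
  have h1 := congrArg (fun u => u % K) h
  simp only [pos, Nat.add_mul_mod_self_left, Nat.mod_eq_of_lt a.2, Nat.mod_eq_of_lt b.2] at h1
  exact Fin.ext h1

lemma dlt_nonneg (H : Key K → Fin m) (k : Fin (2 ^ K)) : 0 ≤ dlt H k :=
  sum_nonneg fun s _ => by split <;> positivity

lemma dlt_le (H : Key K → Fin m) (k : Fin (2 ^ K)) : dlt H k ≤ (1 / 2 : ℝ) ^ base K := by
  have h : dlt H k ≤ ∑ s : Fin K, (1 / 2 : ℝ) ^ base K * gw 0 (pos H s k) := by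
    refine sum_le_sum fun s _ => ?_
    split
    · simp only [gw, Nat.zero_le, if_true, Nat.sub_zero, ← pow_add]
      rw [show base K + (pos H s k + 1) = base K + 1 + pos H s k by omega]
    · exact mul_nonneg (by positivity) (gw_nonneg _ _)
  refine h.trans ?_
  rw [← mul_sum, ← sum_image (f := gw 0) (fun a _ b _ hab => pos_inj H k hab)]
  refine mul_le_of_le_one_right (by positivity) (le_trans ?_ (sum_gw_le 0 (m * K)))
  refine sum_le_sum_of_subset_of_nonneg ?_ fun q _ _ => gw_nonneg _ _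
  intro q hq
  obtain ⟨s, -, rfl⟩ := mem_image.1 hq
  exact mem_range.2 (pos_lt H s k)

lemma freq_le (H : Key K → Fin m) (i : Fin (2 ^ K)) : freq H i ≤ 2 ^ (base K + m * K) := by
  have h : freq H i ≤ ∑ s : Fin K, 2 ^ (base K + pos H s i) :=
    sum_le_sum fun s _ => by split <;> simp
  refine h.trans (le_of_lt ?_)
  rw [← sum_image (f := fun e => 2 ^ e) (fun a _ b _ hab => pos_inj H i
    (Nat.add_left_cancel hab))]
  refine Nat.geomSum_lt le_rfl fun e he => ?_
  obtain ⟨s, -, rfl⟩ := mem_image.1 he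
  have := pos_lt H s i
  simp only
  omega

lemma spike_lattice (H : Key K → Fin m) (k : Fin (2 ^ K)) :
    ∃ z : ℕ, (2 : ℝ) ^ (base K + 1 + m * K) * spike H k = z := by
  refine ⟨(k : ℕ) * 2 ^ (base K + 1 + m * K - (K + 2)) + ∑ s : Fin K,
    if Nat.testBit k s then 2 ^ (m * K - pos H s k) else 0, ?_⟩
  rw [spike, dlt, mul_add, mul_sum]
  push_cast
  congr 1
  · rw [show base K + 1 + m * K = (base K + 1 + m * K - (K + 2)) + (K + 2) by unfold base; omega]
    rw [pow_add, Nat.add_sub_cancel]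
    field_simp
  · refine sum_congr rfl fun s _ => ?_
    by_cases h : Nat.testBit k s
    · simp only [h, if_true]
      have := pos_lt H s k
      rw [show base K + 1 + m * K = (m * K - pos H s k) + (base K + 1 + pos H s k) by omega,
        pow_add, mul_assoc, ← mul_pow]
      norm_num
    · simp [h]

end

end Vale.Agent.P091
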