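import Vale.Agent.P091.Block
import Vale.Agent.P091.Gadget

/-!
Superposition of windowed gadgets at the scales of `L` height classes, read off at one common
order.
-/

namespace Vale.Agent.P091

open Complex Finset MeasureTheory AddCircle
open scoped Real ComplexConjugate ENNReal

noncomputable section

variable [hT : Fact (0 < 2 * π)]

/-- The symmetric partial sum of order `P`. -/
def Sn (P : ℕ) (F : AddCircle (2 * π) → ℂ) (z : AddCircle (2 * π)) : ℂ :=
  ∑ q ∈ Icc (-(P : ℤ)) P, fourierCoeff F q * fourier q z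

lemma continuous_Sn (P : ℕ) (F : AddCircle (2 * π) → ℂ) : Continuous (Sn P F) := by
  unfold Sn; fun_prop

lemma Sn_const_mul (P : ℕ) (F : AddCircle (2 * π) → ℂ) (c : ℂ) (z : AddCircle (2 * π)) :
    Sn P (fun w => c * F w) z = c * Sn P F z := by
  simp only [Sn, fourierCoeff.const_mul, mul_sum]
  exact sum_congr rfl fun q _ => by ring

lemma Sn_add {F F' : AddCircle (2 * π) → ℂ} (hF : Continuous F) (hF' : Continuous F') (P : ℕ)
    (z : AddCircle (2 * π)) : Sn P (F + F') z = Sn P F z + Sn P F' z := by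
  simp only [Sn, fourierCoeff.add (integrable_cont hF) (integrable_cont hF'), Pi.add_apply, add_mul,
    sum_add_distrib]

lemma measurePreserving_nsmul_circle {n : ℕ} (hn : 0 < n) :
    MeasurePreserving (fun z : AddCircle (2 * π) => n • z) haarAddCircle haarAddCircle := by
  have h := Measure.measurePreserving_zsmul (haarAddCircle (T := 2 * π)) (n := (n : ℤ)) (by omega)
  simpa only [natCast_zsmul] using h

lemma integral_comp_nsmul {n : ℕ} (hn : 0 < n) {E : Type*} [NormedAddCommGroup E] [NormedSpace ℝ E]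
    {f : AddCircle (2 * π) → E} (hf : Continuous f) :
    ∫ z, f (n • z) ∂haarAddCircle = ∫ z, f z ∂haarAddCircle := by
  have h := measurePreserving_nsmul_circle (hT := hT) hn
  conv_rhs => rw [← h.map_eq]
  exact (integral_map h.aemeasurable (hf.aestronglyMeasurable)).symm

lemma coeff_comp_nsmul {n : ℕ} (hn : 0 < n) {F : AddCircle (2 * π) → ℂ} (hF : Continuous F)
    (q : ℤ) : fourierCoeff (fun z => F (n • z)) ((n : ℤ) * q) = fourierCoeff F q := by
  simp only [fourierCoeff, smul_eq_mul]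
  rw [← integral_comp_nsmul hn (f := fun z => fourier (-q) z * F z) (by fun_prop)]
  refine integral_congr_ae (Filter.Eventually.of_forall fun z => ?_)
  show fourier (-((n : ℤ) * q)) z * _ = fourier (-q) (n • z) * _
  rw [fourier_apply, fourier_apply, ← natCast_zsmul z n, smul_smul,
    show -((n : ℤ) * q) = -q * n by ring]

lemma coeff_comp_nsmul_zero {n : ℕ} (hn : 0 < n) (F : AddCircle (2 * π) → ℂ) {p : ℤ}
    (hp : ¬(n : ℤ) ∣ p) : fourierCoeff (fun z => F (n • z)) p = 0 := by
  set τ : AddCircle (2 * π) := ((2 * π * (1 / n) : ℝ) : AddCircle (2 * π)) with hτ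
  have hnτ : n • τ = 0 := by
    rw [hτ, ← AddCircle.coe_nsmul, nsmul_eq_mul,
      show (n : ℝ) * (2 * π * (1 / n)) = 2 * π by field_simp]
    exact AddCircle.coe_period _
  simp only [fourierCoeff, smul_eq_mul]
  set I := ∫ z, fourier (-p) z * F (n • z) ∂(haarAddCircle (T := 2 * π)) with hI
  have hshift : I = fourier (-p) τ * I := by
    conv_lhs =>
      rw [hI, ← integral_sub_right_eq_self (μ := haarAddCircle)
        (fun z => fourier (-p) z * F (n • z)) (-τ)]
    rw [hI, ← integral_const_mul]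
    refine integral_congr_ae (Filter.Eventually.of_forall fun z => ?_)
    simp only [sub_neg_eq_add, smul_add, hnτ, add_zero]
    simp only [fourier_apply, smul_add, toCircle_add, Circle.coe_mul]
    ring
  have hne : fourier (-p) τ ≠ 1 := by
    rw [hτ, fourier_turn, ee]
    intro he
    obtain ⟨m, hm⟩ := Complex.exp_eq_one_iff.1 he
    have him := congrArg Complex.im hm
    simp at him
    apply hp
    refine ⟨-m, ?_⟩
    have hn' : (n : ℝ) ≠ 0 := by exact_mod_cast hn.ne'
    have h2 : (p : ℝ) = ((n * -m : ℤ) : ℝ) := by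
      push_cast
      field_simp at him
      linarith
    exact_mod_cast h2
  by_contra h0
  exact hne (mul_right_cancel₀ h0 (by rw [one_mul]; exact hshift.symm))

lemma Sn_comp {n : ℕ} (hn : 0 < n) {F : AddCircle (2 * π) → ℂ} (hF : Continuous F) (P : ℕ)
    (z : AddCircle (2 * π)) : Sn P (fun w => F (n • w)) z = Sn (P / n) F (n • z) := by
  have hn' : (0 : ℤ) < n := by exact_mod_cast hn
  unfold Sn
  symm
  refine sum_of_injOn (fun q => (n : ℤ) * q)
    (fun a _ b _ h => mul_left_cancel₀ hn'.ne' h) ?_ ?_ ?_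
  · intro q hq
    simp only [coe_Icc, Set.mem_Icc] at hq ⊢
    have h1 : ((P / n : ℕ) : ℤ) * n ≤ P := by exact_mod_cast Nat.div_mul_le_self P n
    constructor <;> nlinarith
  · intro p hp hne
    rw [coeff_comp_nsmul_zero hn F ?_, zero_mul]
    rintro ⟨q, rfl⟩
    apply hne
    simp only [mem_Icc] at hp
    refine ⟨q, ?_, rfl⟩
    have h2 : P < (P / n + 1) * n := by
      rw [add_mul, one_mul, mul_comm]
      have := Nat.div_add_mod P n
      have := Nat.mod_lt P hn
      omega
    have h3 : (P : ℤ) < (((P / n : ℕ) : ℤ) + 1) * n := by exact_mod_cast h2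
    simp only [coe_Icc, Set.mem_Icc]
    constructor <;> nlinarith
  · intro q _
    rw [coeff_comp_nsmul hn hF, fourier_apply, fourier_apply, ← natCast_zsmul z n, smul_smul,
      mul_comm q]

/-- The point masses at `x` smoothed up to the degree `M`. -/
def hfun {n : ℕ} (M : ℕ) (x : Fin n → ℝ) (z : AddCircle (2 * π)) : ℂ :=
  ∑ k, (n : ℂ)⁻¹ * vker M (x k) z

section hfun

variable {n : ℕ} (M : ℕ) (x : Fin n → ℝ)

lemma continuous_hfun : Continuous (hfun M x) :=
  continuous_finsetSum _ fun k _ => continuous_const.mul (continuous_vker M (x k))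

lemma coeff_hfun (q : ℤ) :
    fourierCoeff (hfun M x) q = ∑ k, (n : ℂ)⁻¹ * fourierCoeff (vker M (x k)) q := by
  have : hfun M x = ∑ k, fun z => (n : ℂ)⁻¹ * vker M (x k) z := by ext z; simp [hfun]
  rw [this, fourierCoeff.sum univ (fun k z => (n : ℂ)⁻¹ * vker M (x k) z) fun k _ =>
    integrable_cont (continuous_const.mul (continuous_vker M (x k))), Finset.sum_apply]
  simp only [fourierCoeff.const_mul]

lemma norm_hfun_le (z : AddCircle (2 * π)) : ‖hfun M x z‖ ≤ 3 * M := by
  refine (norm_sum_le _ _).trans ?_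
  simp only [norm_mul, norm_inv, Complex.norm_natCast]
  refine (sum_le_sum fun k _ => mul_le_mul_of_nonneg_left (norm_vker_le M (x k) z)
    (by positivity)).trans ?_
  rcases Nat.eq_zero_or_pos n with rfl | hn
  · simp
  · simp [hn.ne']

lemma integral_norm_hfun_le :
    ∫ z, ‖hfun M x z‖ ∂(haarAddCircle (T := 2 * π)) ≤ 2 := by
  calc ∫ z, ‖hfun M x z‖ ∂haarAddCircle
      ≤ ∫ z, ∑ k, (n : ℝ)⁻¹ * ‖vker M (x k) z‖ ∂(haarAddCircle (T := 2 * π)) := by
        refine integral_mono (integrable_cont (continuous_hfun M x)).norm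
          (integrable_finsetSum _ fun k _ => ((integrable_cont (continuous_vker M _)).norm).const_mul _)
          fun z => ?_
        exact (norm_sum_le _ _).trans (le_of_eq (by simp only [norm_mul, norm_inv,
          Complex.norm_natCast]))
    _ ≤ ∑ _k : Fin n, (n : ℝ)⁻¹ * 2 := by
        rw [integral_finsetSum _ fun k _ => ((integrable_cont (continuous_vker M _)).norm).const_mul _]
        refine sum_le_sum fun k _ => ?_
        rw [integral_const_mul]
        exact mul_le_mul_of_nonneg_left (integral_norm_vker_le M _) (by positivity)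
    _ ≤ 2 := by
        rcases Nat.eq_zero_or_pos n with rfl | hn
        · simp
        · simp [hn.ne']

lemma coeff_hfun_high {q : ℤ} (hq : 3 * (M : ℤ) < |q|) : fourierCoeff (hfun M x) q = 0 := by
  rw [coeff_hfun]; simp [coeff_vker_high M _ hq]

lemma Sn_hfun (hM : 0 < M) {P : ℕ} (hP : P ≤ M) (y : ℝ) :
    Sn P (hfun M x) ((2 * π * y : ℝ) : AddCircle (2 * π)) = pSum P x y := by
  simp only [Sn, pSum, fourier_turn]
  refine sum_congr rfl fun q hq => ?_
  rw [coeff_hfun, ← mul_sum]
  congr 2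
  refine sum_congr rfl fun k _ => ?_
  rw [coeff_vker_low hM]
  simp at hq
  exact abs_le.2 ⟨by omega, by omega⟩

end hfun

/-- The model Orlicz function. -/
def gg (u : ℝ) : ℝ := u * Real.sqrt (Real.log (2 + u))

lemma gg_mono {u v : ℝ} (hu : 0 ≤ u) (huv : u ≤ v) : gg u ≤ gg v :=
  mul_le_mul huv (Real.sqrt_le_sqrt (Real.log_le_log (by linarith) (by linarith)))
    (Real.sqrt_nonneg _) (hu.trans huv)

lemma gg_add_le {a b : ℝ} (ha : 0 ≤ a) (hb : 0 ≤ b) :
    gg (a + b) ≤ gg b + a * (Real.sqrt (Real.log (2 + (a + b))) + 2) := by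
  set s := Real.sqrt (Real.log (2 + (a + b)))
  set r := Real.sqrt (Real.log (2 + b))
  have hlb : Real.log 2 ≤ Real.log (2 + b) := Real.log_le_log two_pos (by linarith)
  have hl2 := Real.log_two_gt_d9
  have hr : 1 / 2 ≤ r := Real.le_sqrt_of_sq_le (by linarith)
  have hs : r ≤ s := Real.sqrt_le_sqrt (Real.log_le_log (by linarith) (by linarith))
  have h1 : s ^ 2 - r ^ 2 ≤ a / (2 + b) := by
    rw [Real.sq_sqrt (by linarith [Real.log_nonneg (show (1:ℝ) ≤ 2 + (a + b) by linarith)]),
      Real.sq_sqrt (by linarith), ← Real.log_div (by linarith) (by linarith)]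
    refine (Real.log_le_sub_one_of_pos (by positivity)).trans (le_of_eq ?_)
    field_simp; ring
  have h2 : b * (s - r) ≤ 2 * a := by
    have h3 : (s - r) * (2 + b) ≤ a * (1 / (s + r)) := by
      rw [mul_one_div, le_div_iff₀ (by linarith)]
      rw [le_div_iff₀ (by linarith)] at h1
      linarith
    have h4 : 1 / (s + r) ≤ 1 := by rw [div_le_one (by linarith)]; linarith
    nlinarith [mul_le_mul_of_nonneg_left h4 ha, mul_le_mul_of_nonneg_left hs (show (0:ℝ) ≤ 1 by norm_num)]
  show (a + b) * s ≤ b * r + a * (s + 2)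
  linarith

lemma continuous_gg_norm {F : AddCircle (2 * π) → ℂ} (hF : Continuous F) :
    Continuous fun z => gg ‖F z‖ :=
  hF.norm.mul (((continuous_const.add hF.norm).log fun z =>
    (add_pos_of_pos_of_nonneg (zero_lt_two (α := ℝ)) (norm_nonneg _)).ne').sqrt)

/-- A tower of `L` classes: the function, the gain on the cells, the exceptional weight. -/
structure Tow (Q K₀ L T : ℕ) (F : AddCircle (2 * π) → ℂ) (X B : ℕ → ℝ) : Prop where
  cont : Continuous F
  height : T ≤ 5400 * Q * (K₀ * 2 ^ L) ^ 2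
  big : 0 < L → K₀ ≤ T
  band : ∀ q : ℤ, 3 * (2 : ℤ) ^ T < |q| → fourierCoeff F q = 0
  sup : ∀ z, ‖F z‖ ≤ 3 * L * 2 ^ T
  l1 : ∫ z, ‖F z‖ ∂haarAddCircle ≤ 2 * L
  ggint : ∫ z, gg ‖F z‖ ∂haarAddCircle ≤ L * (640 * Real.sqrt Q + 4)
  mean : (L : ℝ) * (Q / 4096) * 2 ^ T ≤ ∑ t ∈ range (2 ^ T), X t
  var : (2 : ℝ) ^ T * (∑ t ∈ range (2 ^ T), X t ^ 2) - (∑ t ∈ range (2 ^ T), X t) ^ 2
    ≤ L * 4096 ^ Q * ((2 : ℝ) ^ T) ^ 2
  bad_nonneg : ∀ t, 0 ≤ B t
  bad_sum : ∑ t ∈ range (2 ^ T), B t ≤ L * (2 * (1 / 2) ^ K₀) * 2 ^ T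
  gain : ∀ t < 2 ^ T, B t < 1 → ∀ y : ℝ, (t : ℝ) < y * 2 ^ T → y * 2 ^ T < t + 1 →
    ∃ P < 2 ^ T, X t ≤ (Sn P F ((2 * π * y : ℝ) : AddCircle (2 * π))).re

lemma tow_zero (Q K₀ : ℕ) : Tow Q K₀ 0 0 (fun _ => 0) (fun _ => 0) (fun _ => 0) where
  cont := continuous_const
  height := Nat.zero_le _
  big := fun h => absurd h (lt_irrefl 0)
  band := fun q _ => by simp [fourierCoeff]
  sup := fun z => by simp
  l1 := by simp
  ggint := by simp [gg]
  mean := by simp
  var := by simp
  bad_nonneg := fun _ => le_rfl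
  bad_sum := by simp
  gain := fun t _ _ y _ _ => ⟨0, by simp, by simp [Sn, fourierCoeff]⟩

lemma height_step {Q K₀ L G T : ℕ} (hG : G ≤ 16100 * Q * (K₀ * 2 ^ L) ^ 2)
    (hT : T ≤ 5400 * Q * (K₀ * 2 ^ L) ^ 2) :
    G + T ≤ 5400 * Q * (K₀ * 2 ^ (L + 1)) ^ 2 ∧ G + T ≤ 21600 * Q * (K₀ * 2 ^ L) ^ 2 := by
  rw [show 5400 * Q * (K₀ * 2 ^ (L + 1)) ^ 2 = 21600 * Q * (K₀ * 2 ^ L) ^ 2 by ring]
  have : 16100 * Q * (K₀ * 2 ^ L) ^ 2 + 5400 * Q * (K₀ * 2 ^ L) ^ 2
      ≤ 21600 * Q * (K₀ * 2 ^ L) ^ 2 := by nlinarith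
  omega

/-- The sup norm stays within the height of the new class. -/
lemma tower_factor_le {L T Q K : ℕ} (hQ : 1 ≤ Q) (hK : 1600 ≤ K) (hL : L + 4 ≤ 2 * T)
    (hT : T ≤ 21600 * Q * K ^ 2) {u : ℝ} (hu0 : 0 ≤ u) (hu : u ≤ 3 * (L + 1) * 2 ^ T) :
    Real.sqrt (Real.log (2 + u)) + 2 ≤ 256 * Real.sqrt Q * K := by
  have h1 : 2 + u ≤ 2 ^ (T + (L + 4)) := by
    have hL1 : (L : ℝ) + 1 ≤ 2 ^ L := by exact_mod_cast Nat.lt_two_pow_self (n := L)
    have h2 : (1 : ℝ) ≤ 2 ^ T := one_le_pow₀ one_le_two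
    have h3 : (1 : ℝ) ≤ 2 ^ L := one_le_pow₀ one_le_two
    calc 2 + u ≤ 2 + 3 * 2 ^ L * 2 ^ T := by nlinarith
      _ ≤ _ := by rw [pow_add, pow_add]; nlinarith
  have hlog : Real.log (2 + u) ≤ 64800 * (Real.sqrt Q * K) ^ 2 := by
    refine (Real.log_le_log (by linarith) h1).trans ?_
    rw [Real.log_pow, mul_pow, Real.sq_sqrt (Nat.cast_nonneg Q)]
    have h4 : ((T + (L + 4) : ℕ) : ℝ) ≤ 64800 * ((Q : ℝ) * (K : ℝ) ^ 2) := by
      exact_mod_cast (show T + (L + 4) ≤ 64800 * (Q * K ^ 2) by nlinarith)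
    have := Real.log_two_lt_d9
    have h5 : (0 : ℝ) ≤ ((T + (L + 4) : ℕ) : ℝ) := Nat.cast_nonneg _
    nlinarith
  have h6 : 0 ≤ Real.sqrt Q * K := by positivity
  have h7 : Real.sqrt (Real.log (2 + u)) ≤ 255 * (Real.sqrt Q * K) :=
    Real.sqrt_le_iff.2 ⟨by positivity, hlog.trans (by nlinarith)⟩
  have h8 : 2 ≤ Real.sqrt Q * K := by
    have : 1 ≤ Real.sqrt Q := Real.one_le_sqrt.2 (by exact_mod_cast hQ)
    have : (1600 : ℝ) ≤ K := by exact_mod_cast hK
    nlinarith
  linarith

theorem exists_tow {Q K₀ : ℕ} (hQ : 3 ≤ Q) (hK₀ : 1600 ≤ K₀) (hQK : Q ≤ K₀) (L : ℕ) :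
    ∃ T F X B, Tow Q K₀ L T F X B := by
  induction L with
  | zero => exact ⟨0, _, _, _, tow_zero Q K₀⟩
  | succ L ih =>
    obtain ⟨T', F', X', B', h⟩ := ih
    set K := K₀ * 2 ^ L with hK
    have hK0 : K₀ ≤ K := Nat.le_mul_of_pos_right _ (Nat.two_pow_pos L)
    have hLK : L + 4 ≤ K := by
      have := Nat.lt_two_pow_self (n := L)
      have h2 := Nat.mul_le_mul_right (2 ^ L) hK₀
      omega
    obtain ⟨G, n, x, X, B, -, hKG, hG, hmean, hvar, hB0, hBsum, hgain⟩ :=
      exists_gadget (K := K) (Q := Q) (hK₀.trans hK0) hQ (hQK.trans hK0)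
    obtain ⟨hT1, hT2⟩ := height_step hG h.height
    set a : AddCircle (2 * π) → ℂ := fun z => ((K : ℂ)⁻¹) * hfun (2 ^ (G + T')) x z with ha
    set b : AddCircle (2 * π) → ℂ := fun z => F' ((2 ^ G) • z) with hb
    have hKpos : (0 : ℝ) < K := by exact_mod_cast (show 0 < K by omega)
    have hca : Continuous a := continuous_const.mul (continuous_hfun _ x)
    have hcb : Continuous b := h.cont.comp (continuous_nsmul _)
    have hnorm_a : ∀ z, ‖a z‖ = (K : ℝ)⁻¹ * ‖hfun (2 ^ (G + T')) x z‖ := fun z => by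
      simp only [ha, norm_mul, norm_inv, Complex.norm_natCast]
    have hsup_a : ∀ z, ‖a z‖ ≤ 3 * 2 ^ (G + T') := fun z => by
      rw [hnorm_a]
      have h1 : (K : ℝ)⁻¹ ≤ 1 := inv_le_one_of_one_le₀ (by exact_mod_cast (show 1 ≤ K by omega))
      have h2 := norm_hfun_le (2 ^ (G + T')) x z
      push_cast at h2
      exact (mul_le_of_le_one_left (norm_nonneg _) h1).trans h2
    have hsup_b : ∀ z, ‖b z‖ ≤ 3 * L * 2 ^ (G + T') := fun z =>
      (h.sup _).trans (mul_le_mul_of_nonneg_left (pow_le_pow_right₀ one_le_two (by omega))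
        (by positivity))
    have hsup : ∀ z, ‖a z‖ + ‖b z‖ ≤ 3 * ((L : ℝ) + 1) * 2 ^ (G + T') := fun z => by
      linarith [hsup_a z, hsup_b z]
    have hl1a : ∫ z, ‖a z‖ ∂haarAddCircle ≤ (K : ℝ)⁻¹ * 2 := by
      simp only [hnorm_a]
      rw [integral_const_mul]
      exact mul_le_mul_of_nonneg_left (integral_norm_hfun_le _ x) (by positivity)
    have hl1b : ∫ z, ‖b z‖ ∂haarAddCircle ≤ 2 * L :=
      le_of_eq_of_le (integral_comp_nsmul (Nat.two_pow_pos G) h.cont.norm) h.l1
    refine ⟨G + T', a + b, fun t => X (t / 2 ^ T') + X' (t % 2 ^ T'),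
      fun t => B (t / 2 ^ T') + B' (t % 2 ^ T'), ⟨hca.add hcb, hT1, fun _ => by omega, ?_,
      fun z => ?_, ?_, ?_, ?_, ?_, fun t => add_nonneg (hB0 _) (h.bad_nonneg _), ?_, ?_⟩⟩
    · intro q hq
      rw [fourierCoeff.add (integrable_cont hca) (integrable_cont hcb), Pi.add_apply, ha,
        fourierCoeff.const_mul, coeff_hfun_high _ x (by push_cast; linarith), mul_zero, zero_add]
      by_cases hd : ((2 ^ G : ℕ) : ℤ) ∣ q
      · obtain ⟨p, rfl⟩ := hd
        rw [hb, coeff_comp_nsmul (Nat.two_pow_pos G) h.cont]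
        refine h.band p ?_
        rw [abs_mul, abs_of_nonneg (by positivity), pow_add] at hq
        push_cast at hq
        nlinarith [show (0 : ℤ) < 2 ^ G by positivity]
      · exact coeff_comp_nsmul_zero (Nat.two_pow_pos G) F' hd
    · push_cast; exact (norm_add_le (a z) (b z)).trans (hsup z)
    · refine (integral_mono (integrable_cont (hca.add hcb)).norm
        ((integrable_cont hca).norm.add (integrable_cont hcb).norm) fun z => norm_add_le _ _).trans ?_
      rw [integral_add' (integrable_cont hca).norm (integrable_cont hcb).norm]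
      have : (K : ℝ)⁻¹ ≤ 1 := inv_le_one_of_one_le₀ (by exact_mod_cast (show 1 ≤ K by omega))
      push_cast
      linarith
    · set D := 256 * Real.sqrt Q * K with hD
      have hpoint : ∀ z, gg ‖(a + b) z‖ ≤ gg ‖b z‖ + ‖a z‖ * D := fun z => by
        refine (gg_mono (norm_nonneg _) (norm_add_le (a z) (b z))).trans
          ((gg_add_le (norm_nonneg _) (norm_nonneg _)).trans (add_le_add le_rfl ?_))
        exact mul_le_mul_of_nonneg_left (tower_factor_le (by omega) (hK₀.trans hK0)
          (show L + 4 ≤ 2 * (G + T') by omega) hT2 (by positivity) (hsup z)) (norm_nonneg _)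
      have hiA : Integrable (fun z => ‖a z‖ * D) haarAddCircle :=
        (integrable_cont hca).norm.mul_const D
      have hiB : Integrable (fun z => gg ‖b z‖) (haarAddCircle (T := 2 * π)) :=
        (continuous_gg_norm hcb).integrable_of_hasCompactSupport (HasCompactSupport.of_compactSpace _)
      refine (integral_mono ((continuous_gg_norm (hca.add hcb)).integrable_of_hasCompactSupport
        (HasCompactSupport.of_compactSpace _)) (hiB.add hiA) hpoint).trans ?_
      rw [integral_add' hiB hiA, integral_mul_const]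
      have h1 : ∫ z, gg ‖b z‖ ∂haarAddCircle = ∫ z, gg ‖F' z‖ ∂haarAddCircle :=
        integral_comp_nsmul (Nat.two_pow_pos G) (continuous_gg_norm h.cont)
      have h2 := mul_le_mul_of_nonneg_right hl1a (show 0 ≤ D by positivity)
      have h3 : (K : ℝ)⁻¹ * 2 * D = 512 * Real.sqrt Q := by rw [hD]; field_simp; ring
      have h4 := h.ggint
      have h5 : 0 ≤ Real.sqrt Q := Real.sqrt_nonneg _
      push_cast
      linarith
    · rw [show (2 : ℕ) ^ (G + T') = 2 ^ G * 2 ^ T' from pow_add _ _ _, sum_digits_add]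
      push_cast
      have := mul_le_mul_of_nonneg_left hmean (show (0 : ℝ) ≤ 2 ^ T' by positivity)
      have := mul_le_mul_of_nonneg_left h.mean (show (0 : ℝ) ≤ 2 ^ G by positivity)
      rw [pow_add]
      linarith
    · have e := variance_digits_add (2 ^ G) (2 ^ T') X X'
      push_cast at e
      rw [show (2 : ℕ) ^ (G + T') = 2 ^ G * 2 ^ T' from pow_add _ _ _, pow_add, e]
      push_cast
      have := mul_le_mul_of_nonneg_left hvar (sq_nonneg ((2 : ℝ) ^ T'))
      have := mul_le_mul_of_nonneg_left h.var (sq_nonneg ((2 : ℝ) ^ G))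
      linarith
    · rw [show (2 : ℕ) ^ (G + T') = 2 ^ G * 2 ^ T' from pow_add _ _ _, sum_digits_add]
      push_cast
      have hKK : ((1 : ℝ) / 2) ^ K ≤ (1 / 2) ^ K₀ :=
        pow_le_pow_of_le_one (by norm_num) (by norm_num) hK0
      have h1 := mul_le_mul_of_nonneg_left hBsum (show (0 : ℝ) ≤ 2 ^ T' by positivity)
      have h2 := mul_le_mul_of_nonneg_left h.bad_sum (show (0 : ℝ) ≤ 2 ^ G by positivity)
      have h3 := mul_le_mul_of_nonneg_left hKK
        (show (0 : ℝ) ≤ 2 * 2 ^ G * 2 ^ T' by positivity)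
      rw [pow_add]
      linarith
    · intro t ht hBt y hy1 hy2
      set i := t / 2 ^ T' with hi
      set j := t % 2 ^ T' with hj
      have hi2 : i < 2 ^ G := Nat.div_lt_of_lt_mul (by rwa [← pow_add, add_comm T' G])
      have hj2 : j < 2 ^ T' := Nat.mod_lt _ (Nat.two_pow_pos T')
      have hdec : (t : ℝ) = (i : ℝ) * 2 ^ T' + j := by
        rw [hi, hj]; exact_mod_cast (Nat.div_add_mod' t (2 ^ T')).symm
      have hj1 : (j : ℝ) + 1 ≤ 2 ^ T' := by exact_mod_cast hj2
      have hj0 : (0 : ℝ) ≤ j := Nat.cast_nonneg _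
      rw [pow_add, hdec] at hy1 hy2
      set y' := y * 2 ^ G - i with hy'
      obtain ⟨P', hP', hg'⟩ := h.gain j hj2 (by linarith [hB0 i]) y'
        (by rw [hy']; linarith) (by rw [hy']; linarith)
      have hT0 : (0 : ℝ) < 2 ^ T' := by positivity
      have hg1 : (i : ℝ) < y * 2 ^ G := by
        refine lt_of_mul_lt_mul_right ?_ hT0.le
        linarith
      have hg2 : y * 2 ^ G < i + 1 := by
        refine lt_of_mul_lt_mul_right ?_ hT0.le
        linarith
      obtain ⟨N, hN, hg⟩ := hgain i hi2 (by linarith [h.bad_nonneg j]) y hg1 hg2 P'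
      have hlt : N + 2 ^ G * P' < 2 ^ (G + T') := by
        have := Nat.mul_le_mul_left (2 ^ G) (show P' + 1 ≤ 2 ^ T' from hP')
        rw [pow_add]; rw [mul_add, mul_one] at this; omega
      refine ⟨N + 2 ^ G * P', hlt, ?_⟩
      have hdiv : (N + 2 ^ G * P') / 2 ^ G = P' := by
        rw [Nat.add_mul_div_left _ _ (Nat.two_pow_pos G), Nat.div_eq_of_lt hN, zero_add]
      have hpt : (2 ^ G) • ((2 * π * y : ℝ) : AddCircle (2 * π))
          = ((2 * π * y' : ℝ) : AddCircle (2 * π)) := by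
        rw [← AddCircle.coe_nsmul, nsmul_eq_mul,
          show ((2 ^ G : ℕ) : ℝ) * (2 * π * y) = 2 * π * y' + i • (2 * π) by
            rw [hy', nsmul_eq_mul]; push_cast; ring,
          AddCircle.coe_add, AddCircle.coe_nsmul, AddCircle.coe_period, smul_zero, add_zero]
      rw [Sn_add hca hcb, add_re, hb, Sn_comp (Nat.two_pow_pos G) h.cont, hdiv, hpt, ha,
        Sn_const_mul, Sn_hfun _ x (Nat.two_pow_pos _) hlt.le]
      rw [show ((K : ℂ)⁻¹ * pSum (N + 2 ^ G * P') x y).re = (pSum (N + 2 ^ G * P') x y).re / K by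
        rw [show ((K : ℂ)⁻¹) = (((K : ℝ)⁻¹ : ℝ) : ℂ) by push_cast; rfl, re_ofReal_mul]; ring]
      exact add_le_add hg hg'

/-- A block: gain `1` on a set of measure `1 / 64`, with the Orlicz mass of a weight `w` controlling
`√(log u · log log log u)` bounded independently of `Q`. -/
theorem exists_block {Q : ℕ} (hQ : 16384 ≤ Q) :
    ∃ (M : ℕ) (g : AddCircle (2 * π) → ℂ) (w : AddCircle (2 * π) → ℝ)
      (E : Set (AddCircle (2 * π))),
      Continuous g ∧ Continuous w ∧ (∀ z, 0 ≤ w z) ∧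
      ∫ z, ‖g z‖ ∂haarAddCircle ≤ 16384 / Q ∧
      ∫ z, ‖g z‖ * w z ∂haarAddCircle ≤ 22000000 ∧
      (∀ z (s : ℝ), 0 ≤ s → s ≤ Q → 16 ≤ s * ‖g z‖ →
        Real.sqrt (Real.log (s * ‖g z‖) * Real.log (Real.log (Real.log (s * ‖g z‖)))) ≤ w z) ∧
      (∀ q : ℤ, 3 * (M : ℤ) < |q| → fourierCoeff g q = 0) ∧
      MeasurableSet E ∧ ENNReal.ofReal (1 / 64) ≤ haarAddCircle E ∧
      ∀ z ∈ E, ∃ N ≤ M, 1 ≤ ‖∑ q ∈ Icc (-(N : ℤ)) N, fourierCoeff g q * fourier q z‖ := by
  set L := 4096 ^ Q with hL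
  have hLQ : Q ≤ L := le_trans (Nat.le_of_lt (Nat.lt_pow_self (by norm_num))) le_rfl
  obtain ⟨T, F, X, B, h⟩ := exists_tow (Q := Q) (K₀ := L) (by omega) (by omega) hLQ L
  have hLr : (L : ℝ) = 4096 ^ Q := by rw [hL]; push_cast; rfl
  have hQr : (16384 : ℝ) ≤ Q := by exact_mod_cast hQ
  have hL1 : (16384 : ℝ) ≤ L := by exact_mod_cast (show 16384 ≤ L by omega)
  set κ : ℝ := 8192 / (L * Q) with hκ
  have hκ0 : 0 < κ := by positivity
  set g : AddCircle (2 * π) → ℂ := fun z => (κ : ℂ) * F z with hg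
  have hgn : ∀ z, ‖g z‖ = κ * ‖F z‖ := fun z => by
    simp only [hg, norm_mul, Complex.norm_real, Real.norm_of_nonneg hκ0.le]
  set w : AddCircle (2 * π) → ℝ := fun z => Real.sqrt (12 * Q) * Real.sqrt (Real.log (2 + ‖F z‖))
    with hw
  set E : Set (AddCircle (2 * π)) := ⋃ N ∈ range (2 ^ T + 1), {z | 1 ≤ ‖Sn N g z‖} with hE
  have hEc : IsClosed E := Set.Finite.isClosed_biUnion (range (2 ^ T + 1)).finite_toSet fun N _ =>
    isClosed_le continuous_const (continuous_norm.comp (continuous_Sn N g))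
  refine ⟨2 ^ T, g, w, E, continuous_const.mul h.cont,
    continuous_const.mul (((continuous_const.add h.cont.norm).log fun z =>
      (add_pos_of_pos_of_nonneg (zero_lt_two (α := ℝ)) (norm_nonneg _)).ne').sqrt),
    fun z => by positivity, ?_, ?_, ?_, fun q hq => ?_, hEc.measurableSet, ?_, fun z hz => ?_⟩
  · simp only [hgn]
    rw [integral_const_mul]
    refine (mul_le_mul_of_nonneg_left h.l1 hκ0.le).trans (le_of_eq ?_)
    rw [hκ]; field_simp; ring
  · have e : (fun z => ‖g z‖ * w z) = fun z => (κ * Real.sqrt (12 * Q)) * gg ‖F z‖ := by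
      funext z; simp only [hgn, hw, gg]; ring
    rw [e, integral_const_mul]
    refine (mul_le_mul_of_nonneg_left h.ggint (by positivity)).trans ?_
    have hs : Real.sqrt Q * Real.sqrt Q = Q := Real.mul_self_sqrt (Nat.cast_nonneg Q)
    have hs1 : 1 ≤ Real.sqrt Q := Real.one_le_sqrt.2 (by linarith)
    have h12 : Real.sqrt (12 * Q) ≤ 4 * Real.sqrt Q := by
      rw [Real.sqrt_mul (by norm_num)]
      exact mul_le_mul_of_nonneg_right (Real.sqrt_le_iff.2 ⟨by norm_num, by norm_num⟩)
        (Real.sqrt_nonneg _)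
    have key : Real.sqrt (12 * Q) * (640 * Real.sqrt Q + 4) ≤ 2576 * Q :=
      (mul_le_mul_of_nonneg_right h12 (by positivity)).trans (by nlinarith)
    rw [mul_comm (12 : ℝ)] at key
    rw [hκ]
    field_simp
    linarith [key]
  · intro z s hs0 hs hu
    set u := s * ‖g z‖ with hudef
    have huF : u ≤ ‖F z‖ := by
      rw [hudef, hgn, ← mul_assoc]
      refine mul_le_of_le_one_left (norm_nonneg _) ?_
      rw [hκ, ← mul_div_assoc, div_le_one (by positivity)]
      nlinarith
    have hl16 : Real.log 16 = 4 * Real.log 2 := by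
      rw [show (16 : ℝ) = 2 ^ 4 by norm_num, Real.log_pow]; norm_num
    have hlog1 : Real.log 16 ≤ Real.log u := Real.log_le_log (by norm_num) hu
    have hl2 := Real.log_two_gt_d9
    have hlu : 0 < Real.log u := by linarith
    have hllu : 0 < Real.log (Real.log u) := Real.log_pos (by linarith)
    have hT6 : 3 * T ≤ 2 ^ (6 * L) := by
      have h1 := h.height
      have hl := (Nat.lt_two_pow_self (n := L)).le
      calc 3 * T ≤ (16200 * Q) * (L * 2 ^ L) ^ 2 := by nlinarith
        _ ≤ (2 ^ L * 2 ^ L) * (2 ^ L * 2 ^ L) ^ 2 :=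
            Nat.mul_le_mul (Nat.mul_le_mul ((show 16200 ≤ L by omega).trans hl) (hLQ.trans hl))
              (Nat.pow_le_pow_left (Nat.mul_le_mul_right _ hl) 2)
        _ = 2 ^ (6 * L) := by ring
    have hup : ‖F z‖ ≤ 2 ^ (3 * T) := by
      have hT0 : L ≤ T := h.big (by omega)
      refine (h.sup z).trans ?_
      have : 3 * L * 2 ^ T ≤ 2 ^ (3 * T) := by
        rw [show 3 * T = 2 * T + T by ring, pow_add]
        refine Nat.mul_le_mul_right _ ?_
        have := Nat.lt_two_pow_self (n := T)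
        have h4 : 2 ^ T * 2 ^ T = 2 ^ (2 * T) := by rw [← pow_add]; congr 1; ring
        have := Nat.mul_le_mul_right (2 ^ T) (show 3 ≤ 2 ^ T by omega)
        omega
      exact_mod_cast this
    have hLLL : Real.log (Real.log (Real.log u)) ≤ 12 * Q := by
      have hl22 := Real.log_two_lt_d9
      have h1 : Real.log u ≤ 2 ^ (6 * L) := by
        refine (Real.log_le_log (by linarith) (huF.trans hup)).trans ?_
        rw [Real.log_pow]
        have : ((3 * T : ℕ) : ℝ) ≤ 2 ^ (6 * L) := by exact_mod_cast hT6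
        nlinarith [show (0 : ℝ) ≤ ((3 * T : ℕ) : ℝ) from Nat.cast_nonneg _]
      have h2 : Real.log (Real.log u) ≤ 2 ^ (3 + 12 * Q) := by
        refine (Real.log_le_log hlu h1).trans ?_
        rw [Real.log_pow, pow_add, pow_mul]
        push_cast
        norm_num
        rw [← hLr]
        nlinarith
      refine (Real.log_le_log hllu h2).trans ?_
      rw [Real.log_pow]
      push_cast
      nlinarith
    simp only [hw]
    rw [← Real.sqrt_mul (by positivity), mul_comm (12 * (Q : ℝ))]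
    refine Real.sqrt_le_sqrt ((mul_le_mul_of_nonneg_left hLLL hlu.le).trans ?_)
    exact mul_le_mul_of_nonneg_right (Real.log_le_log (by linarith) (by linarith)) (by positivity)
  · rw [hg, fourierCoeff.const_mul, h.band q (by push_cast at hq; linarith), mul_zero]
  · -- the measure of the exceptional set
    set thr : ℝ := (L : ℝ) * Q / 8192 with hthr
    set Tg : Finset ℕ := (range (2 ^ T)).filter fun t => thr ≤ X t ∧ B t < 1 with hTg
    have hbad1 : (((range (2 ^ T)).filter fun t => X t < thr).card : ℝ) * 4 ≤ 2 ^ T := by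
      have h1 := card_lt_le (2 ^ T) X (μ := (L : ℝ) * (Q / 4096)) (c := thr) (v := (L : ℝ) * 4096 ^ Q)
        (by rw [hthr]; nlinarith)
        (by push_cast; exact h.mean) (by push_cast; exact h.var)
      push_cast at h1
      rw [show (L : ℝ) * (Q / 4096) - thr = thr by rw [hthr]; ring, ← hLr] at h1
      have h2 : 4 * ((L : ℝ) * L) ≤ thr ^ 2 := by
        refine le_trans (le_of_eq (by ring)) (pow_le_pow_left₀ (a := 2 * (L : ℝ)) (by positivity) ?_ 2)
        rw [hthr]; nlinarith
      have h3 := mul_le_mul_of_nonneg_left h2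
        (Nat.cast_nonneg (α := ℝ) ((range (2 ^ T)).filter fun t => X t < thr).card)
      have hLL : (0 : ℝ) < L * L := by positivity
      nlinarith
    have hbad2 : (((range (2 ^ T)).filter fun t => ¬B t < 1).card : ℝ) * 4 ≤ 2 ^ T := by
      have h1 : (((range (2 ^ T)).filter fun t => ¬B t < 1).card : ℝ)
          ≤ ∑ t ∈ range (2 ^ T), B t := by
        rw [← nsmul_one, ← sum_const]
        refine le_trans (sum_le_sum fun t ht => ?_)
          (sum_le_sum_of_subset_of_nonneg (filter_subset _ _) fun t _ _ => h.bad_nonneg t)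
        exact not_lt.1 (mem_filter.1 ht).2
      have h2 : 8 * (L : ℝ) ≤ 2 ^ L := by
        have : 8 * L ≤ 2 ^ L := by
          have h5 : 4 ≤ L := by omega
          obtain ⟨l, hl⟩ := Nat.exists_eq_add_of_le (show 6 ≤ L by omega)
          have := Nat.lt_two_pow_self (n := l)
          have : 1 ≤ 2 ^ l := Nat.one_le_two_pow
          rw [hl, pow_add]; omega
        exact_mod_cast this
      have h3 : (L : ℝ) * (2 * (1 / 2) ^ L) ≤ 1 / 4 := by
        rw [div_pow, one_pow]
        field_simp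
        linarith
      have := h.bad_sum
      nlinarith [show (0 : ℝ) ≤ 2 ^ T by positivity]
    have hTcard : (2 : ℝ) ^ T ≤ 2 * (Tg.card : ℝ) := by
      have hcover : range (2 ^ T) ⊆ Tg ∪ ((range (2 ^ T)).filter (fun t => X t < thr)
          ∪ (range (2 ^ T)).filter (fun t => ¬B t < 1)) := by
        intro t ht
        simp only [hTg, mem_union, mem_filter]
        by_cases h1 : X t < thr
        · exact Or.inr (Or.inl ⟨ht, h1⟩)
        · by_cases h2 : B t < 1
          · exact Or.inl ⟨ht, not_lt.1 h1, h2⟩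
          · exact Or.inr (Or.inr ⟨ht, h2⟩)
      have h1 := (card_le_card hcover).trans ((card_union_le _ _).trans
        (add_le_add le_rfl (card_union_le _ _)))
      rw [card_range] at h1
      have h2 : (2 : ℝ) ^ T ≤ (Tg.card : ℝ) + ((((range (2 ^ T)).filter fun t => X t < thr).card : ℝ)
          + (((range (2 ^ T)).filter fun t => ¬B t < 1).card : ℝ)) := by exact_mod_cast h1
      linarith
    set J : ℕ → Set ℝ := fun t => Set.Ioo (2 * π * ((t : ℝ) / 2 ^ T))
      (2 * π * (((t : ℝ) + 1) / 2 ^ T)) with hJ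
    have hπ := Real.pi_pos
    have hsub : (⋃ t ∈ Tg, J t) ⊆ ((↑) : ℝ → AddCircle (2 * π)) ⁻¹' E ∩ Set.Ioc 0 (0 + 2 * π) := by
      intro r hr
      simp only [Set.mem_iUnion] at hr
      obtain ⟨t, ht, hr1, hr2⟩ := hr
      simp only [hTg, mem_filter, mem_range] at ht
      obtain ⟨ht, htX, htB⟩ := ht
      set y := r / (2 * π) with hy
      have hry : r = 2 * π * y := by rw [hy]; field_simp
      rw [hry, mul_lt_mul_iff_right₀ (by positivity), div_lt_iff₀ (by positivity)] at hr1
      rw [hry, mul_lt_mul_iff_right₀ (by positivity), lt_div_iff₀ (by positivity)] at hr2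
      refine ⟨?_, ?_, ?_⟩
      · obtain ⟨P, hP, hXP⟩ := h.gain t ht htB y hr1 hr2
        simp only [hE, Set.mem_preimage, Set.mem_iUnion, Set.mem_setOf_eq]
        refine ⟨P, mem_range.2 (by omega), ?_⟩
        rw [hry, hg, Sn_const_mul, norm_mul, Complex.norm_real, Real.norm_of_nonneg hκ0.le]
        have h2 := (htX.trans hXP).trans (re_le_norm _)
        have h3 := mul_le_mul_of_nonneg_left h2 hκ0.le
        refine le_trans (le_of_eq ?_) h3
        rw [hκ, hthr]; field_simp
      · have : 0 < y := by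
          by_contra hle
          push Not at hle
          nlinarith [mul_nonpos_of_nonpos_of_nonneg hle (show (0 : ℝ) ≤ 2 ^ T by positivity),
            Nat.cast_nonneg (α := ℝ) t]
        rw [hry]; positivity
      · rw [hry, zero_add]
        refine mul_le_of_le_one_right (by positivity) ?_
        by_contra hgt
        push Not at hgt
        have : (t : ℝ) + 1 ≤ 2 ^ T := by exact_mod_cast ht
        nlinarith [show (0 : ℝ) < 2 ^ T by positivity]
    have hvol : ENNReal.ofReal (2 * π * (1 / 64)) ≤ volume (⋃ t ∈ Tg, J t) := by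
      rw [measure_biUnion_finset ?_ fun t _ => measurableSet_Ioo]
      · simp only [hJ, Real.volume_Ioo]
        rw [← ENNReal.ofReal_sum_of_nonneg fun t _ => by
          rw [sub_nonneg]; gcongr; linarith]
        refine ENNReal.ofReal_le_ofReal ?_
        simp only [← mul_sub, ← sub_div, add_sub_cancel_left, sum_const, nsmul_eq_mul]
        rw [show (Tg.card : ℝ) * (2 * π * (1 / 2 ^ T)) = 2 * π * ((Tg.card : ℝ) / 2 ^ T) by ring]
        refine mul_le_mul_of_nonneg_left ?_ (by positivity)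
        rw [le_div_iff₀ (by positivity)]
        nlinarith [show (0 : ℝ) < 2 ^ T by positivity]
      · intro a _ b _ hab
        simp only [Function.onFun, hJ]
        rw [Set.disjoint_left]
        intro r ha hb
        have h2 : (0 : ℝ) < 2 * π / 2 ^ T := by positivity
        have e : ∀ c : ℝ, 2 * π * (c / 2 ^ T) = 2 * π / 2 ^ T * c := fun c => by ring
        simp only [Set.mem_Ioo, e] at ha hb
        rcases Nat.lt_or_gt_of_ne hab with h | h
        · have : (a : ℝ) + 1 ≤ b := by exact_mod_cast h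
          nlinarith
        · have : (b : ℝ) + 1 ≤ a := by exact_mod_cast h
          nlinarith
    have hmp := AddCircle.measurePreserving_mk (2 * π) 0
    have hvolE : ENNReal.ofReal (2 * π * (1 / 64)) ≤ volume E := by
      rw [← hmp.measure_preimage hEc.measurableSet.nullMeasurableSet,
        Measure.restrict_apply' measurableSet_Ioc]
      exact hvol.trans (measure_mono hsub)
    rw [volume_eq_smul_haarAddCircle, Measure.smul_apply, smul_eq_mul,
      ENNReal.ofReal_mul (by positivity)] at hvolE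
    exact (ENNReal.mul_le_mul_iff_right (by simpa using hT.out) ENNReal.ofReal_ne_top).1 hvolE
  · simp only [hE, Set.mem_iUnion, Set.mem_setOf_eq, mem_range] at hz
    obtain ⟨N, hN, h'⟩ := hz
    exact ⟨N, by omega, h'⟩

end

end Vale.Agent.P091
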