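import Vale.Agent.P091.Spikes

/-!
Spike sets carrying `Q` nested windows of `K` levels each: the window `q` has density `4096 ^ q`,
uses its own range of fine coordinates, and its frequencies see the other windows as constants.
-/

namespace Vale.Agent.P091

open Complex Finset
open scoped Real

noncomputable section

variable {K m Q : ℕ}

/-- The exponent of the cells of the window `p`. -/
def ew (K p : ℕ) : ℕ := K + 2 + p * (K + 12)

/-- The exponent shift of the fine coordinates of the window `p`. -/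
def off (K m Q p : ℕ) : ℕ := ew K Q + 12 + p * (m * K + 3 * K + 8)

/-- The exponent of a lattice containing all positions. -/
def lat (K m Q : ℕ) : ℕ := base K + 1 + m * K + off K m Q Q

/-- The position of the multi-index `k`. -/
def xw (H : Key K → Fin m) (k : Fin Q → Fin (2 ^ K)) : ℝ :=
  ∑ p : Fin Q, (((k p : ℕ) : ℝ) / 2 ^ ew K p + dlt H (k p) * (1 / 2) ^ off K m Q p)

/-- The frequency of the index `i` of the window `q`. -/
def fw (H : Key K → Fin m) (q : Fin Q) (i : Fin (2 ^ K)) : ℕ :=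
  freq H i * 2 ^ off K m Q q

/-- The digit `p` of `k`, zero from `Q` on. -/
def kk (k : Fin Q → Fin (2 ^ K)) (p : ℕ) : ℕ := if h : p < Q then (k ⟨p, h⟩ : ℕ) else 0

lemma kk_fin (k : Fin Q → Fin (2 ^ K)) (p : Fin Q) : kk k p = k p := by simp [kk, p.2]

lemma kk_lt (k : Fin Q → Fin (2 ^ K)) (p : ℕ) : kk k p + 1 ≤ 2 ^ K := by
  unfold kk; split
  · exact (k _).2
  · exact Nat.one_le_two_pow

/-- The number of the cell of `k` at the window `p`. -/
def cidx (k : Fin Q → Fin (2 ^ K)) : ℕ → ℕ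
  | 0 => kk k 0
  | p + 1 => cidx k p * 2 ^ (K + 12) + kk k (p + 1)

lemma ew_succ (K p : ℕ) : ew K (p + 1) = ew K p + (K + 12) := by unfold ew; ring

lemma cidx_lt (k : Fin Q → Fin (2 ^ K)) (p : ℕ) : cidx k p + 1 ≤ 2 ^ (ew K p - 2) := by
  induction p with
  | zero => simpa [ew, cidx] using kk_lt k 0
  | succ p ih =>
    have h2 := kk_lt k (p + 1)
    have h3 : 2 ^ (ew K (p + 1) - 2) = 2 ^ (ew K p - 2) * 2 ^ (K + 12) := by
      rw [← pow_add, ew_succ]; congr 1; unfold ew; omega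
    have h4 : 2 ^ K ≤ 2 ^ (K + 12) := Nat.pow_le_pow_right two_pos (by omega)
    have h5 := Nat.mul_le_mul_right (2 ^ (K + 12)) ih
    rw [add_mul, one_mul] at h5
    rw [h3, cidx]
    omega

lemma cidx_congr {k k' : Fin Q → Fin (2 ^ K)} :
    ∀ {p : ℕ}, (∀ r ≤ p, kk k r = kk k' r) → cidx k p = cidx k' p
  | 0, h => h 0 le_rfl
  | p + 1, h => by
    rw [cidx, cidx, h (p + 1) le_rfl, cidx_congr fun r hr => h r (hr.trans (Nat.le_succ p))]

lemma cidx_inj {k k' : Fin Q → Fin (2 ^ K)} {p : ℕ} (h : cidx k p = cidx k' p) :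
    ∀ r ≤ p, kk k r = kk k' r := by
  induction p with
  | zero => intro r hr; rw [Nat.le_zero.1 hr]; exact h
  | succ p ih =>
    have h1 := kk_lt k (p + 1)
    have h2 := kk_lt k' (p + 1)
    have h4 : 2 ^ K ≤ 2 ^ (K + 12) := Nat.pow_le_pow_right two_pos (by omega)
    have hm := congrArg (· % 2 ^ (K + 12)) h
    have hd := congrArg (· / 2 ^ (K + 12)) h
    simp only [cidx, Nat.mul_add_mod_self_right] at hm
    rw [Nat.mod_eq_of_lt (by omega), Nat.mod_eq_of_lt (by omega)] at hm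
    simp only [cidx] at hd
    rw [mul_comm (cidx k p), mul_comm (cidx k' p), Nat.mul_add_div (by positivity),
      Nat.mul_add_div (by positivity), Nat.div_eq_of_lt (by omega), Nat.div_eq_of_lt (by omega),
      add_zero, add_zero] at hd
    intro r hr
    rcases Nat.of_le_succ hr with hr' | hr'
    · exact ih hd r hr'
    · rw [hr']; exact hm

/-- The left end of the cell of `k` at the window `p`. -/
def cpos (k : Fin Q → Fin (2 ^ K)) (p : ℕ) : ℝ := (cidx k p : ℝ) / 2 ^ ew K p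

lemma cpos_succ (k : Fin Q → Fin (2 ^ K)) (p : ℕ) :
    cpos k (p + 1) = cpos k p + (kk k (p + 1) : ℝ) / 2 ^ ew K (p + 1) := by
  rw [cpos, cpos, cidx, ew_succ, pow_add]
  push_cast
  field_simp
  simp only [pow_add]
  ring

lemma cpos_chain (k : Fin Q → Fin (2 ^ K)) {q r : ℕ} (h : q ≤ r) :
    cpos k q ≤ cpos k r ∧ cpos k r + (1 / 2) ^ (ew K r + 11) ≤ cpos k q + (1 / 2) ^ (ew K q + 11) := by
  induction r, h using Nat.le_induction with
  | base => exact ⟨le_rfl, le_rfl⟩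
  | succ r _ ih =>
    rw [cpos_succ]
    refine ⟨ih.1.trans (le_add_of_nonneg_right (by positivity)), le_trans ?_ ih.2⟩
    have h1 : (kk k (r + 1) : ℝ) + 1 ≤ 2 ^ K := by exact_mod_cast kk_lt k (r + 1)
    have e : ∀ n, (1 / 2 : ℝ) ^ n = 1 / 2 ^ n := fun n => by rw [div_pow, one_pow]
    rw [e, e, add_assoc, add_le_add_iff_left, ew_succ,
      show ew K r + (K + 12) + 11 = (ew K r + (K + 12)) + 11 by ring,
      show (1 : ℝ) / 2 ^ (ew K r + 11) = (2 ^ (K + 1)) / 2 ^ (ew K r + (K + 12)) by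
        rw [pow_add, pow_add, pow_add, pow_add]; field_simp,
      show (1 : ℝ) / 2 ^ ((ew K r + (K + 12)) + 11) = (1 / 2 ^ 11) / 2 ^ (ew K r + (K + 12)) by
        rw [pow_add _ (ew K r + (K + 12)) 11]; field_simp,
      ← add_div]
    refine div_le_div_of_nonneg_right ?_ (by positivity)
    rw [pow_succ (2 : ℝ) K]
    norm_num
    nlinarith [show (1 : ℝ) ≤ 2 ^ K from one_le_pow₀ one_le_two]

lemma sum_div_eq_cpos (k : Fin Q → Fin (2 ^ K)) (hQ : 0 < Q) :
    ∑ p : Fin Q, ((k p : ℕ) : ℝ) / 2 ^ ew K p = cpos k (Q - 1) := by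
  obtain ⟨P, rfl⟩ := Nat.exists_eq_add_of_le' hQ
  simp only [← kk_fin]
  rw [Fin.sum_univ_eq_sum_range (fun p => (kk k p : ℝ) / 2 ^ ew K p), Nat.add_sub_cancel]
  suffices h : ∀ r, ∑ p ∈ range (r + 1), (kk k p : ℝ) / 2 ^ ew K p = cpos k r from h P
  intro r
  induction r with
  | zero => simp [cpos, cidx]
  | succ r ih => rw [sum_range_succ, ih, cpos_succ]

lemma ew_mono (K : ℕ) : Monotone (ew K) := fun a b h => by
  unfold ew; have := Nat.mul_le_mul_right (K + 12) h; omega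

lemma xw_bounds (H : Key K → Fin m) (hQK : Q ≤ 2 ^ K) (k : Fin Q → Fin (2 ^ K)) {q : ℕ}
    (hq : q < Q) : cpos k q ≤ xw H k ∧ xw H k ≤ cpos k q + (1 / 2) ^ (ew K q + 10) := by
  have hs : xw H k = cpos k (Q - 1) + ∑ p : Fin Q, dlt H (k p) * (1 / 2) ^ off K m Q p := by
    rw [xw, sum_add_distrib, sum_div_eq_cpos k (by omega)]
  have h := cpos_chain k (show q ≤ Q - 1 by omega)
  have h0 : 0 ≤ ∑ p : Fin Q, dlt H (k p) * (1 / 2) ^ off K m Q p :=
    sum_nonneg fun p _ => mul_nonneg (dlt_nonneg H _) (by positivity)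
  have h1 : ∑ p : Fin Q, dlt H (k p) * (1 / 2) ^ off K m Q p ≤ (1 / 2) ^ (ew K q + 11) := by
    refine (sum_le_sum (g := fun _ => (1 / 2 : ℝ) ^ (base K + (ew K q + 11))) fun p _ => ?_).trans ?_
    · rw [pow_add]
      refine mul_le_mul (dlt_le H _) ?_ (by positivity) (by positivity)
      refine pow_le_pow_of_le_one (by norm_num) (by norm_num) ?_
      have := ew_mono K hq.le
      unfold off; omega
    · rw [sum_const, card_univ, Fintype.card_fin, nsmul_eq_mul, pow_add, ← mul_assoc]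
      refine mul_le_of_le_one_left (by positivity) ?_
      have hb : (Q : ℝ) ≤ 2 ^ base K := by
        exact_mod_cast hQK.trans (Nat.pow_le_pow_right two_pos (by unfold base; omega))
      rw [div_pow, one_pow, mul_one_div, div_le_one (by positivity)]
      exact hb
  have h2 : (0 : ℝ) ≤ (1 / 2) ^ (ew K (Q - 1) + 11) := by positivity
  rw [show (1 / 2 : ℝ) ^ (ew K q + 10) = 2 * (1 / 2) ^ (ew K q + 11) by
    rw [pow_succ _ (ew K q + 10)]; ring]
  exact ⟨by linarith [h.1], by linarith [h.2]⟩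

lemma dlt_lattice (H : Key K → Fin m) (k : Fin (2 ^ K)) :
    ∃ z : ℤ, (2 : ℝ) ^ (base K + 1 + m * K) * dlt H k = z := by
  obtain ⟨z, hz⟩ := spike_lattice H k
  rw [spike, mul_add] at hz
  refine ⟨(z : ℤ) - (k : ℕ) * 2 ^ (base K + 1 + m * K - (K + 2)), ?_⟩
  rw [show base K + 1 + m * K = (base K + 1 + m * K - (K + 2)) + (K + 2) by unfold base; omega,
    pow_add] at hz
  nth_rw 1 [show base K + 1 + m * K = (base K + 1 + m * K - (K + 2)) + (K + 2) by
    unfold base; omega]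
  rw [pow_add]
  field_simp at hz ⊢
  push_cast
  linarith

lemma xw_lattice (H : Key K → Fin m) (k : Fin Q → Fin (2 ^ K)) :
    ∃ z : ℤ, (2 : ℝ) ^ lat K m Q * xw H k = z := by
  have hp : ∀ p : Fin Q, ∃ z : ℤ, (2 : ℝ) ^ lat K m Q *
      (((k p : ℕ) : ℝ) / 2 ^ ew K p + dlt H (k p) * (1 / 2) ^ off K m Q p) = z := by
    intro p
    obtain ⟨z, hz⟩ := dlt_lattice H (k p)
    have h1 : ew K p ≤ lat K m Q := by
      have := ew_mono K p.2.le
      unfold lat off; omega
    have h2 : base K + 1 + m * K + off K m Q p ≤ lat K m Q := by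
      have := Nat.mul_le_mul_right (m * K + 3 * K + 8) p.2.le
      unfold lat off; omega
    refine ⟨(k p : ℕ) * 2 ^ (lat K m Q - ew K p)
      + z * 2 ^ (lat K m Q - (base K + 1 + m * K + off K m Q p)), ?_⟩
    rw [mul_add]
    push_cast
    congr 1
    · rw [pow_sub₀ _ two_ne_zero h1]; field_simp
    · rw [← hz, pow_sub₀ _ two_ne_zero h2, pow_add _ _ (off K m Q p), div_pow, one_pow]
      field_simp
  choose z hz using hp
  exact ⟨∑ p, z p, by rw [xw, mul_sum]; push_cast; exact sum_congr rfl fun p _ => hz p⟩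

lemma freq_dvd (H : Key K → Fin m) (i : Fin (2 ^ K)) : 2 ^ base K ∣ freq H i :=
  dvd_sum fun s _ => by
    split
    · exact dvd_zero _
    · exact Nat.pow_dvd_pow _ (by omega)

/-- At a frequency of the window `q` the phase of `k` is that of its digit `q`. -/
lemma phase_window (H : Key K → Fin m) (q : Fin Q) (i : Fin (2 ^ K)) (k : Fin Q → Fin (2 ^ K))
    (hik : i ≠ k q) :
    ‖ee (-((fw H q i : ℝ) * xw H k)) - (sgnk i (k q) : ℂ)‖
      ≤ 7 * (noise H i (k q) + Q * (1 / 2) ^ (3 * K)) := by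
  set F : ℝ := (fw H q i : ℝ) with hF
  obtain ⟨a, ha⟩ := freq_dvd H i
  have hFa : F = (a : ℝ) * 2 ^ (base K + off K m Q q) := by
    rw [hF, fw, ha]; push_cast; rw [pow_add]; ring
  have hterm : ∀ p : Fin Q, ∃ (z : ℤ) (δ : ℝ), |δ| ≤ (1 / 2) ^ (3 * K) ∧
      F * (((k p : ℕ) : ℝ) / 2 ^ ew K p + dlt H (k p) * (1 / 2) ^ off K m Q p)
        = z + δ + if p = q then (freq H i : ℝ) * spike H (k p) else 0 := by
    intro p
    have he : ew K p ≤ off K m Q q := by
      have := ew_mono K p.2.le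
      unfold off; omega
    have hc : F * (((k p : ℕ) : ℝ) / 2 ^ ew K p)
        = ((a * (k p : ℕ) * 2 ^ (base K + (off K m Q q - ew K p)) : ℕ) : ℤ) := by
      rw [hFa]; push_cast
      rw [pow_add, pow_add, pow_sub₀ _ two_ne_zero he]
      field_simp
    set c : ℤ := ((a * (k p : ℕ) * 2 ^ (base K + (off K m Q q - ew K p)) : ℕ) : ℤ)
    rw [mul_add, hc]
    rcases lt_trichotomy p q with hpq | hpq | hpq
    · obtain ⟨z, hz⟩ := dlt_lattice H (k p)
      have hS : off K m Q p + (m * K + 3 * K + 8) ≤ off K m Q q := by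
        have := Nat.mul_le_mul_right (m * K + 3 * K + 8) (show (p : ℕ) + 1 ≤ q from hpq)
        rw [add_mul, one_mul] at this
        unfold off; omega
      have h2 : base K + 1 + m * K + off K m Q p ≤ base K + off K m Q q := by omega
      refine ⟨c + (a : ℤ) * z * 2 ^ (base K + off K m Q q - (base K + 1 + m * K + off K m Q p)), 0,
        by rw [abs_zero]; positivity, ?_⟩
      rw [if_neg (ne_of_lt hpq), hFa]
      push_cast
      rw [add_zero, add_zero, add_right_inj, ← hz, pow_sub₀ _ two_ne_zero h2,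
        pow_add _ (base K + 1 + m * K) (off K m Q p), div_pow, one_pow]
      field_simp
    · subst hpq
      obtain ⟨b, hb⟩ := (Nat.pow_dvd_pow 2 (show K + 2 ≤ base K by unfold base; omega)).trans
        (freq_dvd H i)
      refine ⟨c - ((b * (k p : ℕ) : ℕ) : ℤ), 0, by rw [abs_zero]; positivity, ?_⟩
      have e : (freq H i : ℝ) * spike H (k p)
          = (freq H i : ℝ) * dlt H (k p) + ((b * (k p : ℕ) : ℕ) : ℝ) := by
        rw [spike, hb]; push_cast; field_simp; ring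
      rw [if_pos rfl, e, hF, fw]
      push_cast
      rw [div_pow, one_pow]
      field_simp
      ring
    · have hS : off K m Q q + (m * K + 3 * K + 8) ≤ off K m Q p := by
        have := Nat.mul_le_mul_right (m * K + 3 * K + 8) (show (q : ℕ) + 1 ≤ p from hpq)
        rw [add_mul, one_mul] at this
        unfold off; omega
      refine ⟨c, F * (dlt H (k p) * (1 / 2) ^ off K m Q p), ?_, by rw [if_neg (ne_of_gt hpq), add_zero]⟩
      have hd := dlt_nonneg H (k p)
      rw [abs_of_nonneg (by rw [hF]; positivity)]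
      have hf : F ≤ 2 ^ (base K + m * K + off K m Q q) := by
        rw [hF, fw, pow_add _ (base K + m * K)]
        push_cast
        exact mul_le_mul_of_nonneg_right (by exact_mod_cast freq_le H i) (by positivity)
      refine (mul_le_mul hf (mul_le_mul_of_nonneg_right (dlt_le H (k p)) (by positivity))
        (by positivity) (by positivity)).trans ?_
      rw [← pow_add, show (1 / 2 : ℝ) ^ (base K + off K m Q p) = 1 / 2 ^ (base K + off K m Q p) by
        rw [div_pow, one_pow], mul_one_div, div_pow, one_pow,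
        div_le_div_iff₀ (by positivity) (by positivity), one_mul, ← pow_add]
      exact pow_le_pow_right₀ one_le_two (by omega)
  choose z δ hδ he using hterm
  set E : ℝ := ∑ p, δ p
  have hsum : F * xw H k = ((∑ p, z p : ℤ) : ℝ) + E + (freq H i : ℝ) * spike H (k q) := by
    rw [xw, mul_sum, sum_congr rfl fun p _ => he p, sum_add_distrib, sum_add_distrib,
      sum_ite_eq' univ q fun p => (freq H i : ℝ) * spike H (k p)]
    simp [E]
  have hE : |E| ≤ Q * (1 / 2) ^ (3 * K) := by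
    refine (abs_sum_le_sum_abs _ _).trans ((sum_le_sum fun p _ => hδ p).trans (le_of_eq ?_))
    simp
  set u : ℂ := ee (-((freq H i : ℝ) * spike H (k q)))
  have e : ee (-(F * xw H k)) = u * ee (-E) := by
    rw [hsum, show -(((∑ p, z p : ℤ) : ℝ) + E + (freq H i : ℝ) * spike H (k q))
      = (-((freq H i : ℝ) * spike H (k q)) + -E) + ((-∑ p, z p : ℤ) : ℝ) by push_cast; ring,
      ee_add, ee_int, mul_one, ee_add]
  rw [e, show u * ee (-E) - (sgnk i (k q) : ℂ) = u * (ee (-E) - 1) + (u - sgnk i (k q)) by ring]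
  refine (norm_add_le _ _).trans ?_
  rw [norm_mul, norm_ee, one_mul]
  have h1 : ‖ee (-E) - 1‖ ≤ 7 * |E| := by simpa using norm_ee_sub_one_le (-E)
  have h2 : ‖u - sgnk i (k q)‖ ≤ 7 * noise H i (k q) := phase_approx H hik
  linarith

/-- The indices agreeing with `k₀` below the window `p`. -/
def pre (k₀ : Fin Q → Fin (2 ^ K)) (p : ℕ) : Finset (Fin Q → Fin (2 ^ K)) :=
  univ.filter fun k => ∀ r : Fin Q, (r : ℕ) < p → k r = k₀ r

lemma sum_pre {M : Type*} [AddCommMonoid M] (k₀ : Fin Q → Fin (2 ^ K)) (q : Fin Q)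
    (F : Fin (2 ^ K) → M) :
    ∑ k ∈ pre k₀ q, F (k q) = 2 ^ (K * (Q - 1 - q)) • ∑ a, F a := by
  classical
  rw [← sum_fiberwise (pre k₀ q) (fun k => k q), smul_sum]
  refine sum_congr rfl fun a _ => ?_
  rw [sum_congr rfl (g := fun _ => F a) fun k hk => by rw [(mem_filter.1 hk).2], sum_const]
  congr 1
  have hset : (pre k₀ q).filter (fun k => k q = a)
      = Fintype.piFinset fun r : Fin Q =>
          if (r : ℕ) < q then {k₀ r} else if r = q then {a} else univ := by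
    ext k
    simp only [pre, mem_filter, mem_univ, true_and, Fintype.mem_piFinset]
    constructor
    · rintro ⟨h1, h2⟩ r
      split_ifs with h h'
      · simp [h1 r h]
      · simp [h', h2]
      · simp
    · intro h
      refine ⟨fun r hr => ?_, ?_⟩
      · simpa [hr] using h r
      · simpa using h q
  rw [hset, Fintype.card_piFinset]
  simp only [apply_ite card, card_singleton, card_univ, Fintype.card_fin]
  rw [prod_ite, prod_const_one, one_mul, prod_ite, prod_const_one, one_mul, prod_const, ← pow_mul]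
  congr 2
  have : ((univ.filter fun r : Fin Q => ¬(r : ℕ) < q).filter fun r => ¬r = q) = Finset.Ioi q := by
    ext r; simp [Fin.ext_iff, Fin.lt_def, -Fin.val_fin_lt]; omega
  rw [this, Fin.card_Ioi]

lemma pre_succ (k₀ : Fin Q → Fin (2 ^ K)) (p : Fin Q) :
    pre k₀ ((p : ℕ) + 1) = (pre k₀ p).filter fun k => k p = k₀ p := by
  ext k
  simp only [pre, mem_filter, mem_univ, true_and]
  constructor
  · exact fun h => ⟨fun r hr => h r (by omega), h p (by omega)⟩
  · rintro ⟨h1, h2⟩ r hr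
    rcases Nat.lt_succ_iff_lt_or_eq.1 hr with h | h
    · exact h1 r h
    · rw [Fin.ext h]; exact h2

/-- The weight of the spike `k` at the point `y`. -/
def wt (H : Key K → Fin m) (y : ℝ) (k : Fin Q → Fin (2 ^ K)) : ℝ :=
  ((2 ^ K : ℕ) : ℝ)⁻¹ ^ Q * Real.cot (π * (y - xw H k))

/-- The common factor of the weights of the window `q`. -/
def lam (K Q q : ℕ) : ℝ := 4096 ^ q / (2 ^ K) ^ (Q - 1 - q)

lemma nsmul_lam (q : ℕ) (a : ℝ) :
    (2 ^ (K * (Q - 1 - q))) • (lam K Q q * a) = (4096 : ℝ) ^ q * a := by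
  rw [nsmul_eq_mul, lam, pow_mul]; push_cast; field_simp

lemma weight_eq {q : ℕ} (hq : q < Q) :
    ((2 ^ K : ℕ) : ℝ)⁻¹ ^ Q * 2 ^ ew K q = 4 * lam K Q q := by
  obtain ⟨d, rfl⟩ := Nat.exists_eq_add_of_lt hq
  rw [lam, show q + d + 1 - 1 - q = d by omega, ew,
    show K + 2 + q * (K + 12) = (2 + 12 * q) + K * (q + 1) by ring,
    show q + d + 1 = (q + 1) + d by ring, show ((2 ^ K : ℕ) : ℝ) = 2 ^ K by push_cast; rfl, inv_pow,
    pow_add ((2 : ℝ) ^ K) (q + 1) d, pow_add (2 : ℝ) (2 + 12 * q), pow_add (2 : ℝ) 2 (12 * q),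
    pow_mul (2 : ℝ) 12 q, pow_mul (2 : ℝ) K (q + 1)]
  field_simp
  norm_num

lemma abs_wt_le (H : Key K → Fin m) {y : ℝ} {k : Fin Q → Fin (2 ^ K)} {q : ℕ} (hq : q < Q)
    {c : ℝ} (hc : 0 < c) (hd : c / 2 ^ ew K q ≤ |y - xw H k|) (hd2 : |y - xw H k| ≤ 1 / 2) :
    |wt H y k| ≤ lam K Q q * (2 / c) := by
  have h0 : 0 < |y - xw H k| := lt_of_lt_of_le (by positivity) hd
  rw [wt, abs_mul, abs_of_nonneg (by positivity)]
  refine (mul_le_mul_of_nonneg_left ((abs_cot_le (abs_pos.1 h0) hd2).trans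
    (one_div_le_one_div_of_le (by positivity) (by linarith : 2 * (c / 2 ^ ew K q) ≤ _)))
    (by positivity)).trans (le_of_eq ?_)
  have := weight_eq (K := K) hq
  field_simp at this ⊢
  linarith

lemma xw_range (H : Key K → Fin m) (hQK : Q ≤ 2 ^ K) (hQ : 0 < Q) (k : Fin Q → Fin (2 ^ K)) :
    0 ≤ xw H k ∧ xw H k ≤ 1 / 4 := by
  obtain ⟨h1, h2⟩ := xw_bounds H hQK k hQ
  refine ⟨le_trans (by unfold cpos; positivity) h1, h2.trans ?_⟩
  have h3 : (cidx k 0 : ℝ) + 1 ≤ 2 ^ K := by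
    exact_mod_cast (show cidx k 0 + 1 ≤ 2 ^ K from kk_lt k 0)
  rw [cpos, show ew K 0 = K + 2 by simp [ew], pow_add _ (K + 2) 10,
    show (1 / 2 : ℝ) ^ (K + 2) = 1 / 2 ^ (K + 2) by rw [div_pow, one_pow],
    show (1 : ℝ) / 2 ^ (K + 2) * (1 / 2) ^ 10 = (1 / 1024) / 2 ^ (K + 2) by ring,
    ← add_div, div_le_iff₀ (by positivity), pow_add]
  linarith

lemma half_pow_ew (K r : ℕ) :
    (1 / 2 : ℝ) ^ (ew K r + 10) = (1 / 1024) / 2 ^ ew K r ∧
      (1 / 2 : ℝ) ^ (ew K r + 11) = (1 / 2048) / 2 ^ ew K r := by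
  constructor <;> rw [pow_add, div_pow, one_pow] <;> norm_num <;> ring

lemma cidx_sub (k k₀ : Fin Q → Fin (2 ^ K)) (p : Fin Q) (hk : k ∈ pre k₀ p) :
    (cidx k p : ℝ) - cidx k₀ p = ((k p : ℕ) : ℝ) - (k₀ p : ℕ) := by
  obtain ⟨r, hr⟩ := p
  have hagree : ∀ s, s < r → kk k s = kk k₀ s := fun s hs => by
    simp only [kk]; rw [dif_pos (by omega), dif_pos (by omega)]
    exact congrArg Fin.val ((mem_filter.1 hk).2 ⟨s, by omega⟩ hs)
  cases r with
  | zero => simp [cidx, kk, hr]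
  | succ r =>
    simp only [cidx]
    rw [cidx_congr (p := r) fun s hs => hagree s (by omega)]
    simp [kk, hr]

/-- The middle of the cell of `k₀` at the window `q`. -/
def InCell (k₀ : Fin Q → Fin (2 ^ K)) (q : ℕ) (y : ℝ) : Prop :=
  ((cidx k₀ q : ℝ) + 1 / 4) / 2 ^ ew K q ≤ y ∧ y ≤ ((cidx k₀ q : ℝ) + 3 / 4) / 2 ^ ew K q

lemma InCell.range {k₀ : Fin Q → Fin (2 ^ K)} {q : ℕ} {y : ℝ} (hy : InCell k₀ q y) :
    0 ≤ y ∧ y ≤ 1 / 4 := by
  refine ⟨le_trans (by positivity) hy.1, hy.2.trans ?_⟩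
  have h3 : (cidx k₀ q : ℝ) + 1 ≤ 2 ^ (ew K q - 2) := by exact_mod_cast cidx_lt k₀ q
  rw [div_le_iff₀ (by positivity), show ew K q = ew K q - 2 + 2 by unfold ew; omega, pow_add]
  linarith

lemma InCell.abs_sub_le {k₀ : Fin Q → Fin (2 ^ K)} {q : Fin Q} {y : ℝ} (hy : InCell k₀ q y)
    (H : Key K → Fin m) (hQK : Q ≤ 2 ^ K) (k : Fin Q → Fin (2 ^ K)) : |y - xw H k| ≤ 1 / 4 := by
  obtain ⟨h1, h2⟩ := xw_range H hQK (Fin.pos q) k
  exact abs_le.2 ⟨by linarith [hy.range.1], by linarith [hy.range.2]⟩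

/-- The point seen from a cell diverging at a coarser window. -/
lemma InCell.outer_pos {k₀ : Fin Q → Fin (2 ^ K)} {q : Fin Q} {y : ℝ} (hy : InCell k₀ q y)
    (H : Key K → Fin m) (hQK : Q ≤ 2 ^ K) {p : Fin Q} (hpq : (p : ℕ) < q)
    {k : Fin Q → Fin (2 ^ K)} (hk : k ∈ pre k₀ p) :
    |(y - xw H k) * 2 ^ ew K p - (((k₀ p : ℕ) : ℝ) - (k p : ℕ))| ≤ 1 / 100 := by
  obtain ⟨h1, h2⟩ := xw_bounds H hQK k p.2
  have hs := cidx_sub k k₀ p hk
  obtain ⟨c1, c2⟩ := cpos_chain k₀ (show (p : ℕ) ≤ q from hpq.le)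
  have he : ew K p + (K + 12) ≤ ew K q := by rw [← ew_succ]; exact ew_mono K hpq
  have hw : (1 : ℝ) / 2 ^ ew K q ≤ (1 / 4096) / 2 ^ ew K p := by
    rw [div_div, one_div, one_div]
    gcongr
    rw [show (4096 : ℝ) = 2 ^ 12 by norm_num, ← pow_add]
    exact pow_le_pow_right₀ one_le_two (by omega)
  have hy' : cpos k₀ p ≤ y ∧ y ≤ cpos k₀ p + (1 / 1024) / 2 ^ ew K p := by
    obtain ⟨hy1, hy2⟩ := hy
    simp only [cpos] at c1 c2 ⊢
    rw [(half_pow_ew K _).2, (half_pow_ew K _).2] at c2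
    have g1 : (cidx k₀ q : ℝ) / 2 ^ ew K q ≤ ((cidx k₀ q : ℝ) + 1 / 4) / 2 ^ ew K q := by
      gcongr; linarith
    have g2 : ((cidx k₀ q : ℝ) + 3 / 4) / 2 ^ ew K q
        ≤ (cidx k₀ q : ℝ) / 2 ^ ew K q + 1 / 2 ^ ew K q := by
      rw [← add_div]; gcongr; norm_num
    have g3 : (0 : ℝ) ≤ 1 / 2048 / 2 ^ ew K (q : ℕ) := by positivity
    have g4 : (1 : ℝ) / 2048 / 2 ^ ew K (p : ℕ) + 1 / 4096 / 2 ^ ew K (p : ℕ)
        ≤ 1 / 1024 / 2 ^ ew K (p : ℕ) := by rw [← add_div]; gcongr; norm_num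
    exact ⟨by linarith, by linarith⟩
  rw [(half_pow_ew K _).1] at h2
  have hp0 : (0 : ℝ) < 2 ^ ew K (p : ℕ) := by positivity
  simp only [cpos] at h1 h2 hy'
  rw [← add_div] at h2 hy'
  rw [div_le_iff₀ hp0, le_div_iff₀ hp0] at hy'
  rw [div_le_iff₀ hp0] at h1
  rw [le_div_iff₀ hp0] at h2
  exact abs_le.2 ⟨by nlinarith, by nlinarith⟩

/-- The total weight of the cells diverging at the coarser window `p`. -/
lemma InCell.outer {k₀ : Fin Q → Fin (2 ^ K)} {q : Fin Q} {y : ℝ} (hy : InCell k₀ q y)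
    (H : Key K → Fin m) (hK : 1 ≤ K) (hQK : Q ≤ 2 ^ K) {p : Fin Q} (hpq : (p : ℕ) < q)
    (F : (Fin Q → Fin (2 ^ K)) → ℝ) (hF : ∀ k, |F k| ≤ |wt H y k|) :
    |∑ k ∈ pre k₀ p, F k - ∑ k ∈ pre k₀ ((p : ℕ) + 1), F k| ≤ (4096 : ℝ) ^ (p : ℕ) * (12 * K) := by
  classical
  rw [pre_succ, sum_filter, ← sum_sub_distrib]
  set b : Fin (2 ^ K) → ℝ := fun a =>
    lam K Q p * if a = k₀ p then 0 else 3 / |(((k₀ p : Fin (2 ^ K)) : ℕ) : ℝ) - (a : ℕ)| with hb
  refine (abs_sum_le_sum_abs _ _).trans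
    ((sum_le_sum (g := fun k => b (k p)) fun k hk => ?_).trans ?_)
  · by_cases hkp : k p = k₀ p
    · simp [hb, hkp]
    · simp only [hb, if_neg hkp, sub_zero]
      have he := hy.outer_pos H hQK hpq hk
      set Δ := |(((k₀ p : Fin (2 ^ K)) : ℕ) : ℝ) - (k p : ℕ)| with hΔ
      have hΔ1 : 1 ≤ Δ := by
        have hne : ((k₀ p : ℕ) : ℤ) - (k p : ℕ) ≠ 0 := fun h => hkp (Fin.ext (by omega))
        have := Int.one_le_abs hne
        rw [hΔ]; exact_mod_cast this
      have hlow : (2 / 3 * Δ) / 2 ^ ew K p ≤ |y - xw H k| := by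
        rw [div_le_iff₀ (by positivity), ← abs_of_pos (show (0:ℝ) < 2 ^ ew K (p : ℕ) by positivity),
          ← abs_mul]
        have := abs_sub_abs_le_abs_sub (((k₀ p : ℕ) : ℝ) - (k p : ℕ))
          ((y - xw H k) * 2 ^ ew K p)
        rw [← hΔ, abs_sub_comm] at this
        linarith
      refine (hF k).trans ((abs_wt_le H p.2 (by linarith) hlow
        (by linarith [hy.abs_sub_le H hQK k])).trans ?_)
      refine mul_le_mul_of_nonneg_left (le_of_eq ?_) (by unfold lam; positivity)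
      field_simp
  · rw [sum_pre k₀ p b]
    simp only [hb, ← mul_sum]
    rw [nsmul_lam]
    refine mul_le_mul_of_nonneg_left ?_ (by positivity)
    rw [← add_sum_erase univ _ (mem_univ (k₀ p)), if_pos rfl, zero_add]
    have h12 : hsum (k₀ p) ≤ 4 * K := hsum_upper hK _
    refine le_trans (le_of_eq ?_) (show 3 * hsum (k₀ p) ≤ 12 * (K : ℝ) by linarith)
    rw [hsum, mul_sum]
    refine sum_congr rfl fun a ha => ?_
    rw [if_neg (mem_erase.1 ha).1]
    ring

/-- A spike of the window `q` contributes its signal minus its noise. -/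
lemma InCell.inner {k₀ : Fin Q → Fin (2 ^ K)} {q : Fin Q} {y : ℝ} (hy : InCell k₀ q y)
    (H : Key K → Fin m) (hQK : Q ≤ 2 ^ K) {k : Fin Q → Fin (2 ^ K)} (hk : k ∈ pre k₀ q) :
    lam K Q q * (if k q = k₀ q then -16 else 2 / 5 / |(((k₀ q : Fin (2 ^ K)) : ℕ) : ℝ) - (k q : ℕ)|
      - 56 / |(((k₀ q : Fin (2 ^ K)) : ℕ) : ℝ) - (k q : ℕ)|
        * (noise H (k₀ q) (k q) + Q * (1 / 2) ^ (3 * K)))
      ≤ ((wt H y k : ℂ) * ee (-((fw H q (k₀ q) : ℝ) * xw H k))).re := by
  obtain ⟨h1, h2⟩ := xw_bounds H hQK k q.2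
  have hs := cidx_sub k k₀ q hk
  have hd4 := hy.abs_sub_le H hQK k
  obtain ⟨hy1, hy2⟩ := hy
  set E : ℝ := 2 ^ ew K q with hE
  have hE0 : 0 < E := by positivity
  rw [(half_pow_ew K _).1] at h2
  simp only [cpos, ← hE, ← add_div] at h1 h2 hy1 hy2
  rw [div_le_iff₀ hE0] at h1 hy1
  rw [le_div_iff₀ hE0] at h2 hy2
  set d := y - xw H k with hd
  set i := k₀ q
  set w := wt H y k with hw
  set f := ee (-((fw H q i : ℝ) * xw H k))
  rw [re_ofReal_mul]
  set u := d * E - (((i : ℕ) : ℝ) - (k q : ℕ)) with hu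
  have hu1 : 1 / 8 ≤ u ∧ u ≤ 3 / 4 := by
    simp only [hu, hd, sub_mul]
    constructor <;> linarith
  have hfre : |f.re| ≤ 1 := (abs_re_le_norm _).trans (norm_ee _).le
  by_cases hk' : k q = i
  · rw [if_pos hk']
    have hlow : (1 / 8 : ℝ) / E ≤ |d| := by
      rw [div_le_iff₀ hE0, ← abs_of_pos hE0, ← abs_mul]
      refine le_trans ?_ (le_abs_self _)
      have : d * E = u := by rw [hu, hk']; ring
      linarith [hu1.1]
    have hwb := abs_wt_le H q.2 (by norm_num) hlow (by linarith)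
    norm_num at hwb
    have h3 : |w * f.re| ≤ |w| := by
      rw [abs_mul]; exact mul_le_of_le_one_right (abs_nonneg _) hfre
    linarith [neg_abs_le (w * f.re)]
  · rw [if_neg hk']
    set Δ := |((i : ℕ) : ℝ) - (k q : ℕ)| with hΔ
    have hΔ1 : 1 ≤ Δ := by
      have hne : ((i : ℕ) : ℤ) - (k q : ℕ) ≠ 0 := fun h => hk' (Fin.ext (by omega))
      have := Int.one_le_abs hne
      rw [hΔ]; exact_mod_cast this
    have hsgn : 0 < sgnk i (k q) * (d * E) ∧ Δ / 4 ≤ |d * E| ∧ |d * E| ≤ 2 * Δ := by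
      have hde : d * E = ((i : ℕ) : ℝ) - (k q : ℕ) + u := by rw [hu]; ring
      rcases lt_or_gt_of_ne hk' with hlt | hlt
      · have : ((k q : ℕ) : ℝ) + 1 ≤ (i : ℕ) := by exact_mod_cast hlt
        have hΔe : Δ = (i : ℕ) - (k q : ℕ) := abs_of_nonneg (by linarith)
        rw [sgnk, if_neg (not_lt.2 hlt.le), hde, abs_of_pos (by linarith)]
        exact ⟨by linarith, by linarith, by linarith⟩
      · have : ((i : ℕ) : ℝ) + 1 ≤ (k q : ℕ) := by exact_mod_cast hlt
        have hΔe : Δ = (k q : ℕ) - (i : ℕ) := (abs_of_nonpos (by linarith)).trans (by ring)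
        rw [sgnk, if_pos hlt, hde, abs_of_neg (by linarith)]
        exact ⟨by linarith, by linarith, by linarith⟩
    have hdE : |d * E| = |d| * E := by rw [abs_mul, abs_of_pos hE0]
    have hlow : (Δ / 4) / E ≤ |d| := by rw [div_le_iff₀ hE0, ← hdE]; exact hsgn.2.1
    have hup : |w| ≤ lam K Q q * (8 / Δ) :=
      (abs_wt_le H q.2 (by positivity) hlow (by linarith)).trans (le_of_eq (by field_simp; ring))
    have hd0 : 0 < |d| := lt_of_lt_of_le (by positivity) hlow
    have hcot : sgnk i (k q) * Real.cot (π * d) = Real.cot (π * |d|) := by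
      have hpos := hsgn.1
      rw [← mul_assoc] at hpos
      have h3 : 0 < sgnk i (k q) * d := pos_of_mul_pos_left hpos hE0.le
      unfold sgnk at h3 ⊢
      split_ifs at h3 ⊢ with hlt
      · rw [abs_of_neg (by linarith : d < 0), mul_neg, Real.cot_eq_cos_div_sin,
          Real.cot_eq_cos_div_sin, Real.cos_neg, Real.sin_neg, div_neg]
        ring
      · rw [one_mul, abs_of_pos (by linarith : 0 < d)]
    have hlo : lam K Q q * (2 / 5 / Δ) ≤ sgnk i (k q) * w := by
      have hge := cot_ge hd0 hd4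
      rw [← hcot] at hge
      have h5 : 1 / (5 * (2 * Δ / E)) ≤ 1 / (5 * |d|) := by
        refine one_div_le_one_div_of_le (by positivity) ?_
        have : |d| ≤ 2 * Δ / E := by rw [le_div_iff₀ hE0, ← hdE]; exact hsgn.2.2
        linarith
      have hweq := weight_eq (K := K) q.2
      rw [← hE] at hweq
      calc lam K Q q * (2 / 5 / Δ)
          = ((2 ^ K : ℕ) : ℝ)⁻¹ ^ Q * (1 / (5 * (2 * Δ / E))) := by
            field_simp at hweq ⊢; linarith
        _ ≤ ((2 ^ K : ℕ) : ℝ)⁻¹ ^ Q * (sgnk i (k q) * Real.cot (π * d)) :=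
            mul_le_mul_of_nonneg_left (h5.trans hge) (by positivity)
        _ = sgnk i (k q) * w := by rw [hw, wt, ← hd]; ring
    have hp := (abs_re_le_norm _).trans (phase_window H q i k (Ne.symm hk'))
    rw [sub_re, ofReal_re] at hp
    set η : ℝ := Q * (1 / 2) ^ (3 * K)
    have h3 : |w * (f.re - sgnk i (k q))| ≤ lam K Q q * (8 / Δ) * (7 * (noise H i (k q) + η)) := by
      rw [abs_mul]
      exact mul_le_mul hup hp (abs_nonneg _) (by unfold lam; positivity)
    have h4 := (abs_le.1 h3).1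
    calc lam K Q q * (2 / 5 / Δ - 56 / Δ * (noise H i (k q) + η))
        = lam K Q q * (2 / 5 / Δ) + -(lam K Q q * (8 / Δ) * (7 * (noise H i (k q) + η))) := by ring
      _ ≤ sgnk i (k q) * w + w * (f.re - sgnk i (k q)) := add_le_add hlo h4
      _ = w * f.re := by ring

/-- The sum over the spikes at the frequency of the cell of `k₀` at the window `q`. -/
theorem window_sum_ge (H : Key K → Fin m) (hK : 1600 ≤ K) (hQK : Q ≤ K)
    (k₀ : Fin Q → Fin (2 ^ K)) (q : Fin Q) (hgood : cellNoise H (k₀ q) ≤ (K : ℝ) / 16) {y : ℝ}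
    (hy : InCell k₀ q y) :
    3 / 20 * (4096 : ℝ) ^ (q : ℕ) * K ≤ ‖∑ k : Fin Q → Fin (2 ^ K),
      (wt H y k : ℂ) * ee (-((fw H q (k₀ q) : ℝ) * xw H k))‖ := by
  classical
  have hQ2 : Q ≤ 2 ^ K := hQK.trans (Nat.le_of_lt (Nat.lt_two_pow_self))
  have hK' : (1600 : ℝ) ≤ K := by exact_mod_cast hK
  set F : (Fin Q → Fin (2 ^ K)) → ℝ := fun k =>
    ((wt H y k : ℂ) * ee (-((fw H q (k₀ q) : ℝ) * xw H k))).re with hFdef
  have hFabs : ∀ k, |F k| ≤ |wt H y k| := fun k => by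
    simp only [hFdef, re_ofReal_mul, abs_mul]
    exact mul_le_of_le_one_right (abs_nonneg _) ((abs_re_le_norm _).trans (norm_ee _).le)
  have hgap : ∀ r ≤ (q : ℕ), |∑ k ∈ pre k₀ 0, F k - ∑ k ∈ pre k₀ r, F k|
      ≤ 12 * K * (((4096 : ℝ) ^ r - 1) / 4095) := by
    intro r
    induction r with
    | zero => simp
    | succ r ih =>
      intro hr
      have h1 := hy.outer H (by omega) hQ2 (p := ⟨r, by omega⟩) (by simpa using hr) F hFabs
      have h2 := ih (by omega)
      refine (abs_sub_le _ (∑ k ∈ pre k₀ r, F k) _).trans ?_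
      have : (12 * K : ℝ) * (((4096 : ℝ) ^ (r + 1) - 1) / 4095)
          = 12 * K * (((4096 : ℝ) ^ r - 1) / 4095) + 4096 ^ r * (12 * K) := by
        rw [pow_succ]; ring
      simp only [] at h1
      linarith
  set i := k₀ q with hi
  set η : ℝ := Q * (1 / 2) ^ (3 * K) with hη
  set β : Fin (2 ^ K) → ℝ := fun a => if a = i then -16 else
    2 / 5 / |((i : ℕ) : ℝ) - (a : ℕ)| - 56 / |((i : ℕ) : ℝ) - (a : ℕ)| * (noise H i a + η) with hβ
  have hsum : (4096 : ℝ) ^ (q : ℕ) * (0.276 * ((K : ℝ) - 1) - K / 16 - 17)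
      ≤ ∑ k ∈ pre k₀ q, F k := by
    refine le_trans ?_ (sum_le_sum (f := fun k => lam K Q q * β (k q)) fun k hk =>
      hy.inner H hQ2 hk)
    rw [sum_pre k₀ q (fun a => lam K Q q * β a), ← mul_sum, nsmul_lam]
    refine mul_le_mul_of_nonneg_left ?_ (by positivity)
    rw [← add_sum_erase _ _ (mem_univ i)]
    have hrest : ∑ a ∈ univ.erase i, β a
        = 2 / 5 * hsum i - cellNoise H i - 56 * η * hsum i := by
      simp only [cellNoise, hsum, mul_sum, ← sum_sub_distrib]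
      refine sum_congr rfl fun a ha => ?_
      simp only [hβ, if_neg (mem_erase.1 ha).1]; ring
    have hη1 : 56 * η * hsum i ≤ 1 := by
      have h2K : (224 : ℝ) * Q * K ≤ 2 ^ (3 * K) := by
        have h1 : K ≤ 2 ^ K := (Nat.lt_two_pow_self).le
        have h2 : 224 ≤ 2 ^ K := le_trans (by omega : 224 ≤ K) h1
        have : 224 * Q * K ≤ 2 ^ (3 * K) := by
          rw [show 3 * K = K + K + K by ring, pow_add, pow_add]
          exact Nat.mul_le_mul (Nat.mul_le_mul h2 (hQK.trans h1)) h1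
        exact_mod_cast this
      have hh := hsum_upper (by omega : 1 ≤ K) i
      have hη0 : 0 ≤ 56 * η := by positivity
      refine (mul_le_mul_of_nonneg_left hh hη0).trans ?_
      rw [hη, div_pow, one_pow]
      field_simp
      linarith
    have hlow := hsum_lower (show 1 ≤ K by omega) i
    have hbi : β i = -16 := by simp [hβ]
    rw [hrest, hbi]
    linarith
  have hout := (abs_le.1 (hgap q le_rfl)).1
  have hall : pre k₀ 0 = univ := by simp [pre]
  rw [hall] at hout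
  refine le_trans ?_ (re_le_norm _)
  rw [re_sum]
  have hD : (1 : ℝ) ≤ 4096 ^ (q : ℕ) := one_le_pow₀ (by norm_num)
  simp only [hFdef] at hout hsum
  nlinarith

end

end Vale.Agent.P091
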